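import Vale.Agent.Lib.P346.Deg

/-!
Approximation of a product of functions by a function of low degree: a random sum of the complements
detects a zero among the factors with probability one half.
-/

namespace Vale.Agent.Lib.P346

open Finset

lemma zmod2_cases (a : ZMod 2) : a = 0 ∨ a = 1 := by
  revert a; decide

lemma zmod2_ne_zero {a : ZMod 2} (h : a ≠ 0) : a = 1 := by
  rcases zmod2_cases a with h' | h'
  · exact absurd h' h
  · exact h'

lemma zmod2_add_self (a : ZMod 2) : a + a = 0 := by
  revert a; decide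

/-- Half of all subsets of `I` have an even sum of a vector with a nonzero entry. -/
lemma two_mul_card_filter_sum_eq_zero {I : Type} [Fintype I] [DecidableEq I] (v : I → ZMod 2) (i0 : I)
    (h0 : v i0 ≠ 0) :
    2 * (univ.filter (fun J : Finset I => ∑ i ∈ J, v i = 0)).card = 2 ^ Fintype.card I := by
  classical
  have hv : v i0 = 1 := zmod2_ne_zero h0
  let tog : Finset I → Finset I := fun J => if i0 ∈ J then J.erase i0 else insert i0 J
  have htog : ∀ J, tog (tog J) = J := by
    intro J
    by_cases h : i0 ∈ J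
    · simp [tog, h, insert_erase]
    · simp [tog, h]
  have hsum : ∀ J, ∑ i ∈ tog J, v i = ∑ i ∈ J, v i + 1 := by
    intro J
    by_cases h : i0 ∈ J
    · have h1 : ∑ i ∈ J, v i = v i0 + ∑ i ∈ J.erase i0, v i := (add_sum_erase J v h).symm
      simp only [tog, h, if_true]
      rw [h1, hv]
      generalize ∑ i ∈ J.erase i0, v i = a
      revert a; decide
    · simp only [tog, h, if_false]
      rw [sum_insert h, hv, add_comm]
  have key : (univ.filter (fun J : Finset I => ∑ i ∈ J, v i = 0)).card =
      (univ.filter (fun J : Finset I => ¬ ∑ i ∈ J, v i = 0)).card := by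
    apply Finset.card_nbij' tog tog
    · intro J hJ
      simp only [mem_coe, mem_filter, mem_univ, true_and] at hJ ⊢
      rw [hsum, hJ]; decide
    · intro J hJ
      simp only [mem_coe, mem_filter, mem_univ, true_and] at hJ ⊢
      rw [hsum, zmod2_ne_zero hJ]; decide
    · intro J _; exact htog J
    · intro J _; exact htog J
  have htot : (univ.filter (fun J : Finset I => ∑ i ∈ J, v i = 0)).card +
      (univ.filter (fun J : Finset I => ¬ ∑ i ∈ J, v i = 0)).card = 2 ^ Fintype.card I := by
    rw [card_filter_add_card_filter_not, card_univ, Fintype.card_finset]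
  omega

/-- Some subset of the index set makes the sum nonzero on at least half of a set of points. -/
lemma exists_half {α I : Type} [Fintype I] [DecidableEq I] (X : Finset α) (v : α → I → ZMod 2)
    (hX : ∀ x ∈ X, ∃ i, v x i ≠ 0) :
    ∃ J : Finset I, 2 * (X.filter (fun x => ∑ i ∈ J, v x i = 0)).card ≤ X.card := by
  classical
  by_contra hcon
  push Not at hcon
  have h1 : ∑ _J : Finset I, X.card <
      ∑ J : Finset I, 2 * (X.filter (fun x => ∑ i ∈ J, v x i = 0)).card :=
    Finset.sum_lt_sum_of_nonempty univ_nonempty (fun J _ => hcon J)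
  have h2 : ∑ J : Finset I, 2 * (X.filter (fun x => ∑ i ∈ J, v x i = 0)).card =
      ∑ x ∈ X, 2 * (univ.filter (fun J : Finset I => ∑ i ∈ J, v x i = 0)).card := by
    simp only [card_filter, Finset.mul_sum]
    rw [Finset.sum_comm]
  have h3 : ∑ x ∈ X, 2 * (univ.filter (fun J : Finset I => ∑ i ∈ J, v x i = 0)).card =
      ∑ _x ∈ X, 2 ^ Fintype.card I := by
    apply Finset.sum_congr rfl
    intro x hx
    obtain ⟨i0, hi0⟩ := hX x hx
    exact two_mul_card_filter_sum_eq_zero (v x) i0 hi0
  rw [h2, h3] at h1
  simp only [sum_const, card_univ, Fintype.card_finset, smul_eq_mul] at h1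
  rw [mul_comm] at h1
  exact lt_irrefl _ h1

variable {E : Type} [Fintype E] [DecidableEq E]

/-- A product of functions of degree at most `D` is close to a function of degree at most `τ * D`:
they differ on at most a `2 ^ (-τ)` fraction of the cube. -/
theorem exists_approx_prod {I : Type} [Fintype I] [DecidableEq I] (y : I → Finset E → ZMod 2) {D : ℕ}
    (hy : ∀ i, y i ∈ DegLE E D) (τ : ℕ) :
    ∃ g ∈ DegLE E (τ * D), 2 ^ τ * (univ.filter (fun x => g x ≠ ∏ i, y i x)).card ≤
      2 ^ Fintype.card E := by
  classical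
  let X0 : Finset (Finset E) := univ.filter (fun x => ∃ i, y i x = 0)
  have hC : ∃ g ∈ DegLE E (τ * D), (∀ x, (∀ i, y i x ≠ 0) → g x = 1) ∧
      2 ^ τ * (X0.filter (fun x => g x ≠ 0)).card ≤ X0.card := by
    induction τ with
    | zero =>
      refine ⟨1, ?_, ?_, ?_⟩
      · simpa using one_mem_DegLE (E := E) 0
      · intro x _; rfl
      · simp
    | succ τ ih =>
      obtain ⟨g, hg, hg1, hg2⟩ := ih
      let X : Finset (Finset E) := X0.filter (fun x => g x ≠ 0)
      obtain ⟨J, hJ⟩ := exists_half X (fun x i => 1 + y i x) (by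
        intro x hx
        have hx0 : x ∈ X0 := (mem_filter.mp hx).1
        obtain ⟨i, hi⟩ := (mem_filter.mp hx0).2
        refine ⟨i, ?_⟩
        simp [hi])
      let φ : Finset E → ZMod 2 := 1 + ∑ i ∈ J, (1 + y i)
      have hφ : φ ∈ DegLE E D :=
        add_mem_DegLE (one_mem_DegLE D) (sum_mem_DegLE J _ (fun i _ =>
          add_mem_DegLE (one_mem_DegLE D) (hy i)))
      have hφx : ∀ x, φ x = 1 + ∑ i ∈ J, (1 + y i x) := by
        intro x; simp [φ, Finset.sum_apply]
      refine ⟨g * φ, ?_, ?_, ?_⟩
      · have := mul_mem_DegLE hg hφ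
        rwa [← Nat.succ_mul] at this
      · intro x hx
        have h1 : ∀ i, 1 + y i x = 0 := by
          intro i; rw [zmod2_ne_zero (hx i)]; decide
        simp only [Pi.mul_apply, hg1 x hx, hφx, h1, sum_const_zero, add_zero, mul_one]
      · have hsub : X0.filter (fun x => (g * φ) x ≠ 0) ⊆
            X.filter (fun x => ∑ i ∈ J, (1 + y i x) = 0) := by
          intro x hx
          obtain ⟨hx0, hx1⟩ := mem_filter.mp hx
          simp only [Pi.mul_apply] at hx1
          have hgx : g x ≠ 0 := left_ne_zero_of_mul hx1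
          have hφx' : φ x ≠ 0 := right_ne_zero_of_mul hx1
          refine mem_filter.mpr ⟨mem_filter.mpr ⟨hx0, hgx⟩, ?_⟩
          have h2 := zmod2_ne_zero hφx'
          rw [hφx] at h2
          generalize ∑ i ∈ J, (1 + y i x) = a at h2 ⊢
          revert a; decide
        have h3 := card_le_card hsub
        calc 2 ^ (τ + 1) * (X0.filter (fun x => (g * φ) x ≠ 0)).card
            ≤ 2 ^ τ * (2 * (X.filter (fun x => ∑ i ∈ J, (1 + y i x) = 0)).card) := by
              rw [pow_succ, mul_assoc]
              exact Nat.mul_le_mul_left _ (Nat.mul_le_mul_left _ h3)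
          _ ≤ 2 ^ τ * X.card := Nat.mul_le_mul_left _ hJ
          _ ≤ X0.card := hg2
  obtain ⟨g, hg, hg1, hg2⟩ := hC
  refine ⟨g, hg, ?_⟩
  have hsub : univ.filter (fun x => g x ≠ ∏ i, y i x) ⊆ X0.filter (fun x => g x ≠ 0) := by
    intro x hx
    have hx' := (mem_filter.mp hx).2
    by_cases hz : ∃ i, y i x = 0
    · obtain ⟨i, hi⟩ := hz
      refine mem_filter.mpr ⟨mem_filter.mpr ⟨mem_univ _, i, hi⟩, ?_⟩
      rwa [Finset.prod_eq_zero (mem_univ i) hi] at hx'
    · push Not at hz
      exfalso
      apply hx'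
      rw [hg1 x hz]
      rw [Finset.prod_eq_one]
      intro i _
      exact zmod2_ne_zero (hz i)
  have h4 : X0.card ≤ 2 ^ Fintype.card E := by
    calc X0.card ≤ (univ : Finset (Finset E)).card := card_le_card (subset_univ _)
      _ = 2 ^ Fintype.card E := by rw [card_univ, Fintype.card_finset]
  calc 2 ^ τ * (univ.filter (fun x => g x ≠ ∏ i, y i x)).card
      ≤ 2 ^ τ * (X0.filter (fun x => g x ≠ 0)).card := Nat.mul_le_mul_left _ (card_le_card hsub)
    _ ≤ X0.card := hg2
    _ ≤ _ := h4

end Vale.Agent.Lib.P346
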