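import Vale.Agent.Lib.P346.Defs
import Vale.Agent.Lib.P346.Razborov

/-!
A circuit evaluated at points of degree one is close to a function of degree at most `τ * τ`.
-/

namespace Vale.Agent.Lib.P346

open Finset MvPolynomial

variable {E : Type} [Fintype E] [DecidableEq E]

lemma zmod2_pow_fn {D : ℕ} {y : Finset E → ZMod 2} (hy : y ∈ DegLE E D) (e : ℕ) :
    (fun x => (y x) ^ e) ∈ DegLE E D := by
  by_cases he : e = 0
  · subst he
    have : (fun x => (y x) ^ 0) = (1 : Finset E → ZMod 2) := by funext x; simp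
    rw [this]; exact one_mem_DegLE D
  · have : (fun x => (y x) ^ e) = y := by
      funext x
      rcases zmod2_cases (y x) with h | h <;> rw [h]
      · exact zero_pow he
      · exact one_pow e
    rw [this]; exact hy

variable {σ : Type} [Fintype σ]

/-- A circuit over `ZMod 2`, at an assignment whose coordinates have degree at most one, agrees with a
function of degree at most `τ * (τ * 1)` except on a small set of points. -/
theorem circuit_approx (C : Circuit (ZMod 2) σ) (a : Finset E → σ → ZMod 2)
    (ha : ∀ v, (fun x => a x v) ∈ DegLE E 1) (τ : ℕ) :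
    ∃ G ∈ DegLE E (τ * (τ * 1)),
      2 ^ τ * (univ.filter (fun x => G x ≠ eval (a x) C.output)).card ≤
        (C.nP4 + C.nP2) * 2 ^ Fintype.card E := by
  classical
  -- values of the bottom gates
  have hS5 : ∀ k, (fun x => eval (a x) (C.gateS5 k)) ∈ DegLE E 1 := by
    intro k
    have h1 : (fun x => eval (a x) (C.gateS5 k)) =
        (∑ v, (C.coeffVar k v) • (fun x => a x v)) + (C.coeffConst k) • (1 : Finset E → ZMod 2) := by
      funext x
      simp [Circuit.gateS5, Finset.sum_apply]
    rw [h1]
    exact add_mem_DegLE (sum_mem_DegLE _ _ (fun v _ => smul_mem_DegLE _ (ha v)))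
      (smul_mem_DegLE _ (one_mem_DegLE 1))
  -- approximation of the product gates of layer four
  have h4 := fun j => exists_approx_prod (fun k x => (eval (a x) (C.gateS5 k)) ^ C.expP4 j k)
    (D := 1) (fun k => zmod2_pow_fn (hS5 k) _) τ
  choose g4 hg4 hg4c using h4
  let Q : Fin C.nS3 → Finset E → ZMod 2 := fun i => ∑ j, (C.coeffS3 i j) • g4 j
  have hQ : ∀ i, Q i ∈ DegLE E (τ * 1) := fun i =>
    sum_mem_DegLE _ _ (fun j _ => smul_mem_DegLE _ (hg4 j))
  -- approximation of the product gates of layer two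
  have h2 := fun t => exists_approx_prod (fun i x => (Q i x) ^ C.expP2 t i)
    (D := τ * 1) (fun i => zmod2_pow_fn (hQ i) _) τ
  choose g2 hg2 hg2c using h2
  let G : Finset E → ZMod 2 := ∑ t, (C.coeffTop t) • g2 t
  refine ⟨G, sum_mem_DegLE _ _ (fun t _ => smul_mem_DegLE _ (hg2 t)), ?_⟩
  let Err4 : Fin C.nP4 → Finset (Finset E) := fun j =>
    univ.filter (fun x => g4 j x ≠ ∏ k, (eval (a x) (C.gateS5 k)) ^ C.expP4 j k)
  let Err2 : Fin C.nP2 → Finset (Finset E) := fun t =>
    univ.filter (fun x => g2 t x ≠ ∏ i, (Q i x) ^ C.expP2 t i)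
  have hsub : univ.filter (fun x => G x ≠ eval (a x) C.output) ⊆
      (univ.biUnion Err4) ∪ (univ.biUnion Err2) := by
    intro x hx
    have hx' := (mem_filter.mp hx).2
    by_contra hnot
    simp only [mem_union, mem_biUnion, mem_univ, true_and, not_or, not_exists] at hnot
    apply hx'
    have e4 : ∀ j, g4 j x = eval (a x) (C.gateP4 j) := by
      intro j
      have h5 := hnot.1 j
      simp only [Err4, mem_filter, mem_univ, true_and, not_not] at h5
      rw [h5]
      simp [Circuit.gateP4]
    have eQ : ∀ i, Q i x = eval (a x) (C.gateS3 i) := by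
      intro i
      simp only [Q, Finset.sum_apply, Pi.smul_apply, smul_eq_mul, Circuit.gateS3, map_sum, map_mul,
        eval_C, e4]
    have e2 : ∀ t, g2 t x = eval (a x) (C.gateP2 t) := by
      intro t
      have h5 := hnot.2 t
      simp only [Err2, mem_filter, mem_univ, true_and, not_not] at h5
      rw [h5]
      simp [Circuit.gateP2, eQ]
    simp only [G, Finset.sum_apply, Pi.smul_apply, smul_eq_mul, Circuit.output, map_sum, map_mul,
      eval_C, e2]
  have hcount : 2 ^ τ * ((univ.biUnion Err4) ∪ (univ.biUnion Err2)).card ≤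
      (C.nP4 + C.nP2) * 2 ^ Fintype.card E := by
    have h6 : ((univ.biUnion Err4) ∪ (univ.biUnion Err2)).card ≤
        ∑ j, (Err4 j).card + ∑ t, (Err2 t).card :=
      (card_union_le _ _).trans (Nat.add_le_add card_biUnion_le card_biUnion_le)
    calc 2 ^ τ * ((univ.biUnion Err4) ∪ (univ.biUnion Err2)).card
        ≤ 2 ^ τ * (∑ j, (Err4 j).card + ∑ t, (Err2 t).card) := Nat.mul_le_mul_left _ h6
      _ = ∑ j, 2 ^ τ * (Err4 j).card + ∑ t, 2 ^ τ * (Err2 t).card := by
          rw [mul_add, Finset.mul_sum, Finset.mul_sum]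
      _ ≤ ∑ _j : Fin C.nP4, 2 ^ Fintype.card E + ∑ _t : Fin C.nP2, 2 ^ Fintype.card E :=
          Nat.add_le_add (Finset.sum_le_sum (fun j _ => hg4c j)) (Finset.sum_le_sum (fun t _ => hg2c t))
      _ = (C.nP4 + C.nP2) * 2 ^ Fintype.card E := by
          simp [add_mul]
  exact (Nat.mul_le_mul_left _ (card_le_card hsub)).trans hcount

end Vale.Agent.Lib.P346
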