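import Mathlib

/-!
Definitions for the statement on P346: iterated matrix multiplication and
circuits with five layers of types sum, product, sum, product, sum.
-/

namespace Vale.Agent.Lib.P346

open MvPolynomial

/-- The index set of the variables of `IMM_{n,n}`: a triple `(l, i, j)` stands for the entry `(i, j)`
of the `l`-th matrix. -/
abbrev ImmVar (n : ℕ) : Type := Fin n × Fin n × Fin n

/-- The `l`-th generic `n × n` matrix, whose entries are distinct variables. -/
noncomputable def immMatrix (K : Type) [Field K] (n : ℕ) (l : Fin n) :
    Matrix (Fin n) (Fin n) (MvPolynomial (ImmVar n) K) :=
  Matrix.of fun i j => X (l, i, j)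

/-- `IMM_{n,n}`: the entry `(0, 0)` of the product `X^(0) * X^(1) * ... * X^(n-1)` of the `n` generic
matrices (indices start at `0` in place of `1`). -/
noncomputable def imm (K : Type) [Field K] (n : ℕ) [NeZero n] : MvPolynomial (ImmVar n) K :=
  (List.ofFn (immMatrix K n)).prod 0 0

/-- A circuit with five layers of types `+, ×, +, ×, +` from the output down, over the field `K`,
with variables indexed by `σ`: one output sum gate, `nP2` product gates, `nS3` sum gates,
`nP4` product gates and `nS5` bottom sum gates. Edges join consecutive layers only; sum gates take
`K`-linear combinations, product gates take products with multiplicities, and a bottom sum gate reads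
the leaves, that is, it is a `K`-linear combination of variables and a constant. No homogeneity is
required. Any fan-in is allowed, unary gates included, and gates may be shared. -/
structure Circuit (K σ : Type) where
  /-- number of product gates just below the output -/
  nP2 : ℕ
  /-- number of sum gates in the third layer -/
  nS3 : ℕ
  /-- number of product gates in the fourth layer -/
  nP4 : ℕ
  /-- number of bottom sum gates -/
  nS5 : ℕ
  /-- coefficients of the output gate -/
  coeffTop : Fin nP2 → K
  /-- multiplicities of the inputs of the product gates of layer two -/
  expP2 : Fin nP2 → Fin nS3 → ℕ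
  /-- coefficients of the sum gates of layer three -/
  coeffS3 : Fin nS3 → Fin nP4 → K
  /-- multiplicities of the inputs of the product gates of layer four -/
  expP4 : Fin nP4 → Fin nS5 → ℕ
  /-- coefficient of each variable in each bottom sum gate -/
  coeffVar : Fin nS5 → σ → K
  /-- constant term of each bottom sum gate -/
  coeffConst : Fin nS5 → K

namespace Circuit

variable {K σ : Type} [Field K] [Fintype σ]

/-- The polynomial computed by a bottom sum gate. -/
noncomputable def gateS5 (C : Circuit K σ) (k : Fin C.nS5) : MvPolynomial σ K :=
  (∑ v, MvPolynomial.C (C.coeffVar k v) * X v) + MvPolynomial.C (C.coeffConst k)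

/-- The polynomial computed by a product gate of layer four. -/
noncomputable def gateP4 (C : Circuit K σ) (j : Fin C.nP4) : MvPolynomial σ K :=
  ∏ k, C.gateS5 k ^ C.expP4 j k

/-- The polynomial computed by a sum gate of layer three. -/
noncomputable def gateS3 (C : Circuit K σ) (i : Fin C.nS3) : MvPolynomial σ K :=
  ∑ j, MvPolynomial.C (C.coeffS3 i j) * C.gateP4 j

/-- The polynomial computed by a product gate of layer two. -/
noncomputable def gateP2 (C : Circuit K σ) (t : Fin C.nP2) : MvPolynomial σ K :=
  ∏ i, C.gateS3 i ^ C.expP2 t i

/-- The polynomial computed by the output gate. -/
noncomputable def output (C : Circuit K σ) : MvPolynomial σ K :=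
  ∑ t, MvPolynomial.C (C.coeffTop t) * C.gateP2 t

/-- The number of gates of the circuit (the output gate and all gates of the four layers below it).
The leaves are not counted, so this is at most the number of vertices. -/
def size (C : Circuit K σ) : ℕ := 1 + C.nP2 + C.nS3 + C.nP4 + C.nS5

end Circuit

end Vale.Agent.Lib.P346
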