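import Mathlib

/-!
Functions on the Boolean cube (points are subsets of `E`) with values in `ZMod 2`, and the subspaces
of functions of degree at most `D`.
-/

namespace Vale.Agent.Lib.P346

open Finset

set_option linter.unusedSectionVars false

variable {E : Type} [Fintype E] [DecidableEq E]

/-- The function of a monomial: it is `1` at `x` when `R ⊆ x`, and `0` otherwise. -/
def monoFn (R : Finset E) : Finset E → ZMod 2 := fun x => if R ⊆ x then 1 else 0

/-- The functions of degree at most `D`. -/
def DegLE (E : Type) [Fintype E] [DecidableEq E] (D : ℕ) : Submodule (ZMod 2) (Finset E → ZMod 2) :=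
  Submodule.span (ZMod 2) {g | ∃ R : Finset E, R.card ≤ D ∧ g = monoFn R}

lemma monoFn_mem {D : ℕ} {R : Finset E} (h : R.card ≤ D) : monoFn R ∈ DegLE E D :=
  Submodule.subset_span ⟨R, h, rfl⟩

lemma monoFn_mul (R R' : Finset E) : monoFn R * monoFn R' = monoFn (R ∪ R') := by
  funext x
  simp only [Pi.mul_apply, monoFn, union_subset_iff]
  by_cases h : R ⊆ x <;> by_cases h' : R' ⊆ x <;> simp [h, h']

lemma one_mem_DegLE (D : ℕ) : (1 : Finset E → ZMod 2) ∈ DegLE E D := by
  have : (1 : Finset E → ZMod 2) = monoFn ∅ := by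
    funext x; simp [monoFn]
  rw [this]; exact monoFn_mem (by simp)

lemma DegLE_mono {D D' : ℕ} (h : D ≤ D') : DegLE E D ≤ DegLE E D' := by
  apply Submodule.span_mono
  rintro g ⟨R, hR, rfl⟩
  exact ⟨R, hR.trans h, rfl⟩

lemma mul_mem_DegLE {D D' : ℕ} {f g : Finset E → ZMod 2} (hf : f ∈ DegLE E D) (hg : g ∈ DegLE E D') :
    f * g ∈ DegLE E (D + D') := by
  induction hf using Submodule.span_induction with
  | mem f hf =>
    rcases hf with ⟨R, hR, rfl⟩
    induction hg using Submodule.span_induction with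
    | mem g hg =>
      rcases hg with ⟨R', hR', rfl⟩
      rw [monoFn_mul]
      exact monoFn_mem ((card_union_le _ _).trans (Nat.add_le_add hR hR'))
    | zero => simp
    | add a b _ _ ha hb => rw [mul_add]; exact Submodule.add_mem _ ha hb
    | smul c a _ ha => rw [mul_smul_comm]; exact Submodule.smul_mem _ c ha
  | zero => simp
  | add a b _ _ ha hb => rw [add_mul]; exact Submodule.add_mem _ ha hb
  | smul c a _ ha => rw [smul_mul_assoc]; exact Submodule.smul_mem _ c ha

lemma pow_mem_DegLE {D : ℕ} {f : Finset E → ZMod 2} (hf : f ∈ DegLE E D) (k : ℕ) :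
    f ^ k ∈ DegLE E (k * D) := by
  induction k with
  | zero => simpa using one_mem_DegLE 0
  | succ k ih =>
    rw [pow_succ, Nat.succ_mul]
    exact mul_mem_DegLE ih hf

lemma sum_mem_DegLE {D : ℕ} {ι : Type} (s : Finset ι) (f : ι → Finset E → ZMod 2)
    (h : ∀ i ∈ s, f i ∈ DegLE E D) : ∑ i ∈ s, f i ∈ DegLE E D :=
  Submodule.sum_mem _ h

lemma add_mem_DegLE {D : ℕ} {f g : Finset E → ZMod 2} (hf : f ∈ DegLE E D) (hg : g ∈ DegLE E D) :
    f + g ∈ DegLE E D := Submodule.add_mem _ hf hg

lemma smul_mem_DegLE {D : ℕ} (c : ZMod 2) {f : Finset E → ZMod 2} (hf : f ∈ DegLE E D) :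
    c • f ∈ DegLE E D := Submodule.smul_mem _ c hf

/-- The membership function of a single point of `E` has degree at most one. -/
lemma mem_fn_mem_DegLE (e : E) : (fun x : Finset E => if e ∈ x then (1 : ZMod 2) else 0) ∈ DegLE E 1 := by
  have : (fun x : Finset E => if e ∈ x then (1 : ZMod 2) else 0) = monoFn {e} := by
    funext x; simp [monoFn]
  rw [this]; exact monoFn_mem (by simp)

/-- Two to a positive power vanishes in `ZMod 2`. -/
lemma two_pow_eq_zero {k : ℕ} (hk : 0 < k) : ((2 ^ k : ℕ) : ZMod 2) = 0 :=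
  (ZMod.natCast_eq_zero_iff _ _).mpr (dvd_pow_self 2 hk.ne')

/-- Counting the points of an interval of subsets that contain `R`. -/
lemma sum_Icc_monoFn (S T R : Finset E) (hST : S ⊆ T) :
    (∑ x ∈ Icc S T, monoFn R x) =
      if R ⊆ T then ((2 ^ (T \ (S ∪ R)).card : ℕ) : ZMod 2) else 0 := by
  have h1 : (∑ x ∈ Icc S T, monoFn R x) = (((Icc S T).filter (fun x => R ⊆ x)).card : ZMod 2) := by
    simp [monoFn]
  rw [h1]
  by_cases hR : R ⊆ T
  · have h2 : (Icc S T).filter (fun x => R ⊆ x) = Icc (S ∪ R) T := by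
      ext x
      simp only [mem_filter, mem_Icc, union_subset_iff]
      tauto
    rw [h2, if_pos hR, card_Icc_finset (union_subset hST hR)]
    have h3 : T.card - (S ∪ R).card = (T \ (S ∪ R)).card := by
      rw [card_sdiff_of_subset (union_subset hST hR)]
    rw [h3]
  · have h2 : (Icc S T).filter (fun x => R ⊆ x) = ∅ := by
      apply filter_eq_empty_iff.mpr
      intro x hx hRx
      exact hR (hRx.trans (mem_Icc.mp hx).2)
    rw [h2, if_neg hR]; simp

/-- The sum of a function of degree at most `D` over a subcube of dimension more than `D` vanishes. -/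
lemma sum_Icc_eq_zero_of_mem_DegLE {D : ℕ} {P : Finset E → ZMod 2} (hP : P ∈ DegLE E D)
    {S T : Finset E} (hST : S ⊆ T) (hd : D < (T \ S).card) : ∑ x ∈ Icc S T, P x = 0 := by
  induction hP using Submodule.span_induction with
  | mem f hf =>
    rcases hf with ⟨R, hR, rfl⟩
    rw [sum_Icc_monoFn S T R hST]
    split_ifs with hRT
    · apply two_pow_eq_zero
      -- the set `T \ (S ∪ R)` is nonempty by counting
      have h1 : (T \ S).card ≤ (T \ (S ∪ R)).card + R.card := by
        have : T \ S ⊆ (T \ (S ∪ R)) ∪ R := by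
          intro z hz
          simp only [mem_sdiff, mem_union, not_or] at hz ⊢
          by_cases hzR : z ∈ R
          · exact Or.inr hzR
          · exact Or.inl ⟨hz.1, hz.2, hzR⟩
        exact (card_le_card this).trans (card_union_le _ _)
      omega
    · rfl
  | zero => simp
  | add a b _ _ ha hb => simp [Finset.sum_add_distrib, ha, hb]
  | smul c a _ ha =>
    simp only [Pi.smul_apply, smul_eq_mul]
    rw [← Finset.mul_sum, ha, mul_zero]

end Vale.Agent.Lib.P346
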