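import Mathlib

/-!
The path family of one block: paths in a layered shift graph, given by subsets of `range m` (the
positions of the free bits equal to one). Two distinct paths give an excursion from the first one, and
excursions are few. This gives many subsets of edges leaving exactly one path alive and one path dead.
-/

namespace Vale.Agent.Lib.P346

open Finset

/-- The last `h` bits before position `l` (bit `j` of the window is position `l - 1 - j`). -/
def window (h : ℕ) (A : Finset ℕ) (l : ℕ) : Fin h → Bool :=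
  fun j => decide (j.1 < l ∧ l - 1 - j.1 ∈ A)

lemma window_congr {h l : ℕ} {A A' : Finset ℕ} (H : ∀ k, l - h ≤ k → k < l → (k ∈ A ↔ k ∈ A')) :
    window h A l = window h A' l := by
  funext j
  have hj := j.2
  simp only [window, decide_eq_decide]
  constructor
  · rintro ⟨h1, h2⟩
    exact ⟨h1, (H _ (by omega) (by omega)).mp h2⟩
  · rintro ⟨h1, h2⟩
    exact ⟨h1, (H _ (by omega) (by omega)).mpr h2⟩

lemma mem_iff_of_window_eq {h l : ℕ} {A A' : Finset ℕ} (H : window h A l = window h A' l) {k : ℕ}
    (h1 : l - h ≤ k) (h2 : k < l) : k ∈ A ↔ k ∈ A' := by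
  have hj : l - 1 - k < h := by omega
  have h3 := congrFun H ⟨l - 1 - k, hj⟩
  simp only [window, decide_eq_decide] at h3
  have e : l - 1 - (l - 1 - k) = k := by omega
  rw [e] at h3
  have c : l - 1 - k < l := by omega
  constructor
  · intro hk; exact (h3.mp ⟨c, hk⟩).2
  · intro hk; exact (h3.mpr ⟨c, hk⟩).2

lemma window_zero (h : ℕ) (A : Finset ℕ) : window h A 0 = fun _ => false := by
  funext j; simp [window]

lemma window_end {h m : ℕ} {A : Finset ℕ} (hA : A ⊆ range m) :
    window h A (m + h) = fun _ => false := by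
  funext j
  have hj := j.2
  simp only [window, decide_eq_false_iff_not, not_and]
  intro _ hmem
  have := mem_range.mp (hA hmem)
  omega

/-- The shift of a window by one new bit. -/
def shift (h : ℕ) (w : Fin h → Bool) (c : Bool) : Fin h → Bool :=
  fun j => if hj : j.1 = 0 then c else w ⟨j.1 - 1, by have := j.2; omega⟩

lemma window_succ (h : ℕ) (A : Finset ℕ) (l : ℕ) :
    window h A (l + 1) = shift h (window h A l) (decide (l ∈ A)) := by
  funext j
  by_cases hj : j.1 = 0
  · simp [window, shift, hj]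
  · simp only [window, shift, hj, dite_false, decide_eq_decide]
    have e : l + 1 - 1 - j.1 = l - 1 - (j.1 - 1) := by omega
    rw [e]
    constructor
    · rintro ⟨h1, h2⟩
      exact ⟨by omega, h2⟩
    · rintro ⟨h1, h2⟩
      exact ⟨by omega, h2⟩

variable {h n : ℕ} (φ : (Fin h → Bool) → Fin n) (m : ℕ)

/-- The edges of the graph of a block: a layer, a vertex and a bit. -/
abbrev Edge0 (m h n : ℕ) : Type := Fin (m + h) × Fin n × Bool

/-- The edge used by a path in a layer. -/
def edge (A : Finset ℕ) (l : Fin (m + h)) : Edge0 m h n :=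
  (l, φ (window h A l.1), decide (l.1 ∈ A))

/-- The set of edges of a path. -/
def Mono (A : Finset ℕ) : Finset (Edge0 m h n) :=
  univ.image (edge φ m A)

lemma edge_injective (A : Finset ℕ) : Function.Injective (edge φ m A) := by
  intro l l' hl
  exact congrArg Prod.fst hl

lemma card_Mono (A : Finset ℕ) : (Mono φ m A).card = m + h := by
  rw [Mono, card_image_of_injective _ (edge_injective φ m A)]
  simp

lemma edge_mem_Mono_iff (A A' : Finset ℕ) (l : Fin (m + h)) :
    edge φ m A' l ∈ Mono φ m A ↔ edge φ m A' l = edge φ m A l := by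
  constructor
  · intro hmem
    obtain ⟨l', _, hl'⟩ := mem_image.mp hmem
    have : l' = l := congrArg Prod.fst hl'
    subst this
    exact hl'.symm
  · intro he
    rw [he]
    exact mem_image_of_mem _ (mem_univ _)

/-- `A''` is a single excursion from the path `A`, leaving it at `i` and coming back at `r`. -/
def IsExc (A A'' : Finset ℕ) (i r : ℕ) : Prop :=
  i < m ∧ r ≤ m + h ∧ i + h + 1 ≤ r ∧ (i ∈ A'' ↔ i ∉ A) ∧
    (∀ k, (k < i ∨ r - h ≤ k) → (k ∈ A'' ↔ k ∈ A)) ∧
    (∀ l : Fin (m + h), i ≤ l.1 → l.1 < r → edge φ m A'' l ≠ edge φ m A l)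

/-- The set that follows `A'` on the interval from `i` to `r` and `A` elsewhere. -/
def splice (A A' : Finset ℕ) (i r : ℕ) : Finset ℕ :=
  (A.filter (fun k => ¬ (i ≤ k ∧ k < r))) ∪ (A'.filter (fun k => i ≤ k ∧ k < r))

lemma mem_splice (A A' : Finset ℕ) (i r k : ℕ) :
    k ∈ splice A A' i r ↔ if i ≤ k ∧ k < r then k ∈ A' else k ∈ A := by
  by_cases hk : i ≤ k ∧ k < r
  · simp [splice, hk]
  · simp only [splice, mem_union, mem_filter, hk, not_false_eq_true, and_true, and_false, or_false,
      if_false]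

lemma exists_min_nat {p : ℕ → Prop} (H : ∃ k, p k) : ∃ k, p k ∧ ∀ j < k, ¬ p j := by
  classical
  exact ⟨Nat.find H, Nat.find_spec H, fun j hj => Nat.find_min H hj⟩

/-- Any path other than `A` contains, outside `A`, the edges of a single excursion from `A`. -/
theorem exists_exc (hφ : Function.Injective φ) {A A' : Finset ℕ} (hA : A ⊆ range m) (hA' : A' ⊆ range m)
    (hne : A' ≠ A) :
    ∃ i r A'', A'' ⊆ range m ∧ IsExc φ m A A'' i r ∧
      Mono φ m A'' \ Mono φ m A ⊆ Mono φ m A' \ Mono φ m A := by
  classical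
  have hdiff : ∃ k, ¬ (k ∈ A' ↔ k ∈ A) := by
    by_contra hcon
    push Not at hcon
    exact hne (Finset.ext hcon)
  obtain ⟨i, hi, himin⟩ := exists_min_nat hdiff
  have himin' : ∀ k < i, (k ∈ A' ↔ k ∈ A) := fun k hk => by
    have := himin k hk
    push Not at this
    exact this
  have him : i < m := by
    by_contra hcon
    apply hi
    constructor
    · intro hmem; have := mem_range.mp (hA' hmem); omega
    · intro hmem; have := mem_range.mp (hA hmem); omega
  let Pr : ℕ → Prop := fun r => i < r ∧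
    (r = m + h ∨ (r < m + h ∧ window h A' r = window h A r ∧ (r ∈ A' ↔ r ∈ A)))
  have hPr : ∃ r, Pr r := ⟨m + h, by omega, Or.inl rfl⟩
  obtain ⟨r, hr, hrmin⟩ := exists_min_nat hPr
  have hir : i < r := hr.1
  have hrD : r ≤ m + h := by
    by_contra hcon
    exact hrmin (m + h) (by omega) ⟨by omega, Or.inl rfl⟩
  have hwr : window h A' r = window h A r := by
    rcases hr.2 with h1 | h1
    · rw [h1, window_end hA, window_end hA']
    · exact h1.2.1
  have hbits : ∀ k, r - h ≤ k → k < r → (k ∈ A' ↔ k ∈ A) :=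
    fun k h1 h2 => mem_iff_of_window_eq hwr h1 h2
  have hih : i + h + 1 ≤ r := by
    by_contra hcon
    exact hi (hbits i (by omega) hir)
  obtain ⟨A'', hmem⟩ : ∃ A'' : Finset ℕ, ∀ k, k ∈ A'' ↔ if i ≤ k ∧ k < r then k ∈ A' else k ∈ A :=
    ⟨splice A A' i r, mem_splice A A' i r⟩
  have hlow : ∀ k, k < r → (k ∈ A'' ↔ k ∈ A') := by
    intro k hk
    rw [hmem]
    by_cases hik : i ≤ k
    · rw [if_pos ⟨hik, hk⟩]
    · rw [if_neg (fun h' => hik h'.1)]
      exact (himin' k (by omega)).symm
  have hhigh : ∀ k, r - h ≤ k → (k ∈ A'' ↔ k ∈ A) := by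
    intro k hk
    by_cases hkr : k < r
    · rw [hlow k hkr]
      exact hbits k hk hkr
    · rw [hmem, if_neg (fun h' => hkr h'.2)]
  have hbelow : ∀ l : Fin (m + h), l.1 < r → edge φ m A'' l = edge φ m A' l := by
    intro l hl
    have h1 : window h A'' l.1 = window h A' l.1 :=
      window_congr (fun k _ h3 => hlow k (by omega))
    have h2 : decide (l.1 ∈ A'') = decide (l.1 ∈ A') := by
      simp only [decide_eq_decide]; exact hlow l.1 hl
    simp only [edge, h1, h2]
  have habove : ∀ l : Fin (m + h), r ≤ l.1 → edge φ m A'' l = edge φ m A l := by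
    intro l hl
    have h1 : window h A'' l.1 = window h A l.1 :=
      window_congr (fun k h2 _ => hhigh k (by omega))
    have h2 : decide (l.1 ∈ A'') = decide (l.1 ∈ A) := by
      simp only [decide_eq_decide]; exact hhigh l.1 (by omega)
    simp only [edge, h1, h2]
  refine ⟨i, r, A'', ?_, ⟨him, hrD, hih, ?_, ?_, ?_⟩, ?_⟩
  · intro k hk
    rw [hmem] at hk
    split_ifs at hk
    · exact hA' hk
    · exact hA hk
  · rw [hlow i hir]
    tauto
  · intro k hk
    rcases hk with hk | hk
    · rw [hlow k (by omega)]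
      exact himin' k hk
    · exact hhigh k hk
  · intro l h1 h2 he
    rw [hbelow l h2] at he
    have hw : window h A' l.1 = window h A l.1 := hφ (congrArg (fun q => q.2.1) he)
    have hb : decide (l.1 ∈ A') = decide (l.1 ∈ A) := congrArg (fun q => q.2.2) he
    simp only [decide_eq_decide] at hb
    by_cases hli : l.1 = i
    · rw [hli] at hb
      exact hi hb
    · exact hrmin l.1 h2 ⟨by omega, Or.inr ⟨l.2, hw, hb⟩⟩
  · intro e he
    obtain ⟨he1, he2⟩ := mem_sdiff.mp he
    obtain ⟨l, _, rfl⟩ := mem_image.mp he1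
    by_cases hl : l.1 < r
    · refine mem_sdiff.mpr ⟨?_, he2⟩
      rw [hbelow l hl]
      exact mem_image_of_mem _ (mem_univ _)
    · exfalso
      apply he2
      rw [habove l (by omega)]
      exact mem_image_of_mem _ (mem_univ _)

open Classical in
/-- The number of excursions with given endpoints. -/
theorem card_exc_le (A : Finset ℕ) (i r : ℕ) :
    (((range m).powerset.filter (fun A'' => IsExc φ m A A'' i r))).card ≤ 2 ^ (r - h - 1 - i) := by
  classical
  have hcard : (powerset (Ioo i (r - h))).card = 2 ^ (r - h - 1 - i) := by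
    rw [card_powerset, Nat.card_Ioo]
    congr 1
    omega
  rw [← hcard]
  apply Finset.card_le_card_of_injOn (fun A'' => A'' ∩ Ioo i (r - h))
  · intro A'' _
    exact mem_coe.mpr (mem_powerset.mpr inter_subset_right)
  · intro A1 h1 A2 h2 he
    obtain ⟨_, _, _, a1, a2, _⟩ := (mem_filter.mp (mem_coe.mp h1)).2
    obtain ⟨_, _, _, b1, b2, _⟩ := (mem_filter.mp (mem_coe.mp h2)).2
    ext k
    by_cases hk1 : k < i
    · rw [a2 k (Or.inl hk1), b2 k (Or.inl hk1)]
    by_cases hk2 : k = i
    · subst hk2; rw [a1, b1]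
    by_cases hk3 : r - h ≤ k
    · rw [a2 k (Or.inr hk3), b2 k (Or.inr hk3)]
    have hkI : k ∈ Ioo i (r - h) := mem_Ioo.mpr ⟨by omega, by omega⟩
    have h3 := Finset.ext_iff.mp he k
    simp only [mem_inter, hkI, and_true] at h3
    exact h3

/-- An excursion from `i` to `r` has at least `r - i` edges outside the path. -/
theorem card_sdiff_Mono_ge {A A'' : Finset ℕ} {i r : ℕ} (H : IsExc φ m A A'' i r) :
    r - i ≤ (Mono φ m A'' \ Mono φ m A).card := by
  classical
  obtain ⟨_, hr, _, _, _, hedge⟩ := H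
  let L : Finset (Fin (m + h)) := univ.filter (fun l => i ≤ l.1 ∧ l.1 < r)
  have hL : L.card = r - i := by
    have h1 : L.image (fun l => l.1) = Ico i r := by
      ext k
      simp only [mem_image, mem_Ico, L, mem_filter, mem_univ, true_and]
      constructor
      · rintro ⟨l, hl, rfl⟩; exact hl
      · intro hk; exact ⟨⟨k, by omega⟩, hk, rfl⟩
    have h2 := card_image_of_injective L (Fin.val_injective (n := m + h))
    have h3 : (L.image Fin.val).card = (Ico i r).card := congrArg card h1
    rw [h2] at h3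
    rw [h3, Nat.card_Ico]
  rw [← hL]
  apply Finset.card_le_card_of_injOn (edge φ m A'')
  · intro l hl
    have hl' := (mem_filter.mp (mem_coe.mp hl)).2
    refine mem_coe.mpr (mem_sdiff.mpr ⟨mem_image_of_mem _ (mem_univ _), ?_⟩)
    rw [edge_mem_Mono_iff]
    exact hedge l hl'.1 hl'.2
  · exact (edge_injective φ m A'').injOn

open Classical in
/-- The subsets `S` of the edges outside the path `A` such that `A` is the only path disjoint from `S`
and the only path contained in `S` together with `A`. -/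
noncomputable def GoodSet (A : Finset ℕ) : Finset (Finset (Edge0 m h n)) :=
  (univ \ Mono φ m A).powerset.filter (fun S =>
    (∀ A' ∈ (range m).powerset, A' ≠ A → ¬ Disjoint S (Mono φ m A')) ∧
    (∀ A' ∈ (range m).powerset, A' ≠ A → ¬ (Mono φ m A' ⊆ S ∪ Mono φ m A)))

lemma card_powerset_filter_disjoint {α : Type} [DecidableEq α] (Y e : Finset α) (he : e ⊆ Y) :
    (Y.powerset.filter (fun S => Disjoint S e)).card = 2 ^ (Y.card - e.card) := by
  have h1 : Y.powerset.filter (fun S => Disjoint S e) = (Y \ e).powerset := by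
    ext S
    simp only [mem_filter, mem_powerset, subset_sdiff]
  rw [h1, card_powerset, card_sdiff_of_subset he]

lemma card_powerset_filter_subset {α : Type} [DecidableEq α] (Y e : Finset α) (he : e ⊆ Y) :
    (Y.powerset.filter (fun S => e ⊆ S)).card = 2 ^ (Y.card - e.card) := by
  have h1 : Y.powerset.filter (fun S => e ⊆ S) = Icc e Y := by
    ext S
    simp only [mem_filter, mem_powerset, mem_Icc]
    tauto
  rw [h1, card_Icc_finset he]

/-- For every path at least half of the subsets of the other edges are good. -/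
theorem two_pow_le_card_good (hφ : Function.Injective φ) {A : Finset ℕ} (hA : A ⊆ range m)
    (hpar : 2 * m * (m + h + 1) ≤ 2 ^ h) (hy : m + h ≤ (univ \ Mono φ m A).card) :
    2 ^ (univ \ Mono φ m A).card ≤ 2 * (GoodSet φ m A).card := by
  classical
  set Y := univ \ Mono φ m A with hY
  set y := Y.card with hyy
  let T : Finset (ℕ × ℕ) := range m ×ˢ range (m + h + 1)
  let X : ℕ × ℕ → Finset (Finset ℕ) := fun q => (range m).powerset.filter (fun A'' => IsExc φ m A A'' q.1 q.2)
  let e : Finset ℕ → Finset (Edge0 m h n) := fun A'' => Mono φ m A'' \ Mono φ m A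
  have heY : ∀ A'', e A'' ⊆ Y := by
    intro A'' z hz
    exact mem_sdiff.mpr ⟨mem_univ _, (mem_sdiff.mp hz).2⟩
  let PP : Finset ℕ → Finset (Finset (Edge0 m h n)) := fun A'' => Y.powerset.filter (fun S => Disjoint S (e A''))
  let QQ : Finset ℕ → Finset (Finset (Edge0 m h n)) := fun A'' => Y.powerset.filter (fun S => e A'' ⊆ S)
  let Bad : Finset (Finset (Edge0 m h n)) := Y.powerset \ GoodSet φ m A
  have hBad : Bad ⊆ T.biUnion (fun q => (X q).biUnion (fun A'' => PP A'' ∪ QQ A'')) := by
    intro S hS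
    obtain ⟨hS1, hS2⟩ := mem_sdiff.mp hS
    have hSY := mem_powerset.mp hS1
    have hnot : ¬ ((∀ A' ∈ (range m).powerset, A' ≠ A → ¬ Disjoint S (Mono φ m A')) ∧
        (∀ A' ∈ (range m).powerset, A' ≠ A → ¬ (Mono φ m A' ⊆ S ∪ Mono φ m A))) := by
      intro hh
      exact hS2 (mem_filter.mpr ⟨hS1, hh⟩)
    rw [not_and_or] at hnot
    have hex : ∃ i r A'', A'' ⊆ range m ∧ IsExc φ m A A'' i r ∧ (Disjoint S (e A'') ∨ e A'' ⊆ S) := by
      rcases hnot with hnot | hnot
      · push Not at hnot
        obtain ⟨A', h1, h2, h3⟩ := hnot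
        obtain ⟨i, r, A'', h4, h5, h6⟩ := exists_exc φ m hφ hA (mem_powerset.mp h1) h2
        refine ⟨i, r, A'', h4, h5, Or.inl ?_⟩
        apply disjoint_of_subset_right (h6.trans sdiff_subset) h3
      · push Not at hnot
        obtain ⟨A', h1, h2, h3⟩ := hnot
        obtain ⟨i, r, A'', h4, h5, h6⟩ := exists_exc φ m hφ hA (mem_powerset.mp h1) h2
        refine ⟨i, r, A'', h4, h5, Or.inr ?_⟩
        intro z hz
        have hz1 := mem_sdiff.mp (h6 hz)
        rcases mem_union.mp (h3 hz1.1) with h7 | h7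
        · exact h7
        · exact absurd h7 hz1.2
    obtain ⟨i, r, A'', h1, h2, h3⟩ := hex
    refine mem_biUnion.mpr ⟨(i, r), ?_, mem_biUnion.mpr ⟨A'', ?_, ?_⟩⟩
    · refine mem_product.mpr ⟨mem_range.mpr h2.1, mem_range.mpr ?_⟩
      have := h2.2.1
      simp only
      omega
    · exact mem_filter.mpr ⟨mem_powerset.mpr h1, h2⟩
    · rcases h3 with h3 | h3
      · exact mem_union_left _ (mem_filter.mpr ⟨hS1, h3⟩)
      · exact mem_union_right _ (mem_filter.mpr ⟨hS1, h3⟩)
  have hone : ∀ A'', (PP A'' ∪ QQ A'').card ≤ 2 * 2 ^ (y - (e A'').card) := by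
    intro A''
    have h1 : (PP A'').card = 2 ^ (y - (e A'').card) := card_powerset_filter_disjoint Y (e A'') (heY A'')
    have h2 : (QQ A'').card = 2 ^ (y - (e A'').card) := card_powerset_filter_subset Y (e A'') (heY A'')
    have h3 := card_union_le (PP A'') (QQ A'')
    omega
  have hq : ∀ q ∈ T, ((X q).biUnion (fun A'' => PP A'' ∪ QQ A'')).card ≤ 2 ^ (y - h) := by
    intro q _
    by_cases hne : (X q).Nonempty
    · obtain ⟨A0, hA0⟩ := hne
      have hexc0 := (mem_filter.mp hA0).2
      obtain ⟨_, hr, hih, _, _, _⟩ := hexc0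
      have hyy2 : m + h ≤ y := hy
      calc ((X q).biUnion (fun A'' => PP A'' ∪ QQ A'')).card
          ≤ ∑ A'' ∈ X q, (PP A'' ∪ QQ A'').card := card_biUnion_le
        _ ≤ ∑ _A'' ∈ X q, 2 * 2 ^ (y - (q.2 - q.1)) := by
            apply Finset.sum_le_sum
            intro A'' hA''
            have h5 := card_sdiff_Mono_ge φ m (mem_filter.mp hA'').2
            refine (hone A'').trans (Nat.mul_le_mul_left _ (Nat.pow_le_pow_right (by norm_num) ?_))
            have : q.2 - q.1 ≤ (e A'').card := h5
            omega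
        _ = (X q).card * (2 * 2 ^ (y - (q.2 - q.1))) := by
            rw [sum_const, smul_eq_mul]
        _ ≤ 2 ^ (q.2 - h - 1 - q.1) * (2 * 2 ^ (y - (q.2 - q.1))) :=
            Nat.mul_le_mul_right _ (card_exc_le φ m A q.1 q.2)
        _ = 2 ^ (y - h) := by
            rw [mul_comm 2, ← pow_succ, ← pow_add]
            congr 1
            omega
    · rw [not_nonempty_iff_eq_empty] at hne
      rw [hne]
      simp
  have hBadCard : Bad.card ≤ (m * (m + h + 1)) * 2 ^ (y - h) := by
    calc Bad.card ≤ (T.biUnion (fun q => (X q).biUnion (fun A'' => PP A'' ∪ QQ A''))).card :=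
          card_le_card hBad
      _ ≤ ∑ q ∈ T, ((X q).biUnion (fun A'' => PP A'' ∪ QQ A'')).card := card_biUnion_le
      _ ≤ ∑ _q ∈ T, 2 ^ (y - h) := Finset.sum_le_sum hq
      _ = (m * (m + h + 1)) * 2 ^ (y - h) := by
          simp [T, card_product]
  have hGoodSub : GoodSet φ m A ⊆ Y.powerset := filter_subset _ _
  have hsum : Bad.card + (GoodSet φ m A).card = Y.powerset.card := card_sdiff_add_card_eq_card hGoodSub
  have hYp : Y.powerset.card = 2 ^ y := card_powerset Y
  have h2 : 2 * Bad.card ≤ 2 ^ y := by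
    have hhy : h ≤ y := by omega
    calc 2 * Bad.card ≤ 2 * ((m * (m + h + 1)) * 2 ^ (y - h)) := Nat.mul_le_mul_left _ hBadCard
      _ = (2 * m * (m + h + 1)) * 2 ^ (y - h) := by ring
      _ ≤ 2 ^ h * 2 ^ (y - h) := Nat.mul_le_mul_right _ hpar
      _ = 2 ^ y := by rw [← pow_add]; congr 1; omega
  omega

end Vale.Agent.Lib.P346
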