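import Vale.Agent.Lib.P346.Defs
import Vale.Agent.Lib.P346.Deg
import Vale.Agent.Lib.P346.Paths

/-!
The assignment of the variables of `IMM_{n,n}`: `B` consecutive blocks of a layered shift graph, and
the entry `(0, 0)` of the product of the matrices evaluated there.
-/

namespace Vale.Agent.Lib.P346

open Finset MvPolynomial

variable {h n : ℕ} (φ : (Fin h → Bool) → Fin n) (m : ℕ)

/-- The slice of a set of edges of all blocks at one block. -/
def sliceN (B : ℕ) (x : Finset (Fin B × Edge0 m h n)) (i : ℕ) : Finset (Edge0 m h n) :=
  univ.filter (fun e => ∃ hi : i < B, ((⟨i, hi⟩ : Fin B), e) ∈ x)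

/-- The indicator of an edge given by a natural number layer (zero beyond the last layer). -/
def val (y : Finset (Edge0 m h n)) (l : ℕ) (p : Fin n) (c : Bool) : ZMod 2 :=
  if hl : l < m + h then (if ((⟨l, hl⟩ : Fin (m + h)), p, c) ∈ y then 1 else 0) else 0

/-- The two possible successors of a vertex. -/
noncomputable def nxt (p : Fin n) (c : Bool) : Fin n :=
  φ (shift h (Function.invFun φ p) c)

/-- The matrix entry of layer `l` of a block: one edge with bit `false` and, in the free layers only,
one edge with bit `true`. -/
noncomputable def entry (y : Finset (Edge0 m h n)) (l : ℕ) (p q : Fin n) : ZMod 2 :=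
  (if q = nxt φ p false then val m y l p false else 0) +
    (if l < m ∧ q = nxt φ p true then val m y l p true else 0)

/-- The product of the indicators of the first `l` edges of a path. -/
def weight (y : Finset (Edge0 m h n)) (A : Finset ℕ) (l : ℕ) : ZMod 2 :=
  ∏ s ∈ range l, val m y s (φ (window h A s)) (decide (s ∈ A))

/-- The row vector after `l` layers of a block, as a sum over paths. -/
def rowF (y : Finset (Edge0 m h n)) (l : ℕ) (q : Fin n) : ZMod 2 :=
  ∑ A ∈ (range (min l m)).powerset, (if q = φ (window h A l) then 1 else 0) * weight φ m y A l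

lemma window_insert (A : Finset ℕ) {l s : ℕ} (hs : s ≤ l) :
    window h (insert l A) s = window h A s := by
  apply window_congr
  intro k _ hk
  have : k ≠ l := by omega
  simp [mem_insert, this]

lemma weight_insert (y : Finset (Edge0 m h n)) (A : Finset ℕ) (l : ℕ) :
    weight φ m y (insert l A) l = weight φ m y A l := by
  apply Finset.prod_congr rfl
  intro s hs
  have hs' := mem_range.mp hs
  rw [window_insert A hs'.le]
  have hne : s ≠ l := by omega
  have : decide (s ∈ insert l A) = decide (s ∈ A) := by
    simp [mem_insert, hne]
  rw [this]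

lemma nxt_φ (hφ : Function.Injective φ) (w : Fin h → Bool) (c : Bool) :
    nxt φ (φ w) c = φ (shift h w c) := by
  simp only [nxt]
  rw [Function.leftInverse_invFun hφ w]

/-- One layer of a block applied to the row vector. -/
theorem row_step (hφ : Function.Injective φ) (y : Finset (Edge0 m h n)) (l : ℕ) (q : Fin n) :
    ∑ p, rowF φ m y l p * entry φ m y l p q = rowF φ m y (l + 1) q := by
  classical
  -- first the sum over `p`
  have h1 : ∑ p, rowF φ m y l p * entry φ m y l p q =
      ∑ A ∈ (range (min l m)).powerset, weight φ m y A l *
        entry φ m y l (φ (window h A l)) q := by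
    simp only [rowF, Finset.sum_mul]
    rw [Finset.sum_comm]
    apply Finset.sum_congr rfl
    intro A _
    rw [Finset.sum_eq_single (φ (window h A l))]
    · simp
    · intro p _ hp
      simp [hp]
    · intro hc; exact absurd (mem_univ _) hc
  rw [h1]
  have hentry : ∀ A : Finset ℕ, weight φ m y A l * entry φ m y l (φ (window h A l)) q =
      (if q = φ (shift h (window h A l) false) then
          weight φ m y A l * val m y l (φ (window h A l)) false else 0) +
        (if l < m ∧ q = φ (shift h (window h A l) true) then
          weight φ m y A l * val m y l (φ (window h A l)) true else 0) := by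
    intro A
    simp only [entry, nxt_φ φ hφ, mul_add]
    congr 1 <;> split_ifs <;> simp
  by_cases hl : l < m
  · -- a free layer
    have hm1 : min (l + 1) m = l + 1 := by omega
    have hm2 : min l m = l := by omega
    simp only [rowF, hm1, hm2]
    rw [range_add_one, sum_powerset_insert (by simp)]
    rw [← Finset.sum_add_distrib]
    apply Finset.sum_congr rfl
    intro A hA
    have hlA : l ∉ A := by
      intro hmem
      have := mem_range.mp (mem_powerset.mp hA hmem)
      omega
    rw [hentry]
    congr 1
    · rw [window_succ]
      have hd : decide (l ∈ A) = false := by simpa using hlA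
      rw [hd]
      have hw : weight φ m y A (l + 1) = weight φ m y A l * val m y l (φ (window h A l)) false := by
        simp only [weight]
        rw [prod_range_succ, hd]
      rw [hw]
      split_ifs <;> simp
    · rw [window_succ]
      have hd : decide (l ∈ insert l A) = true := by simp
      rw [hd, window_insert A le_rfl]
      have hw : weight φ m y (insert l A) (l + 1) =
          weight φ m y A l * val m y l (φ (window h A l)) true := by
        have : weight φ m y (insert l A) (l + 1) =
            weight φ m y (insert l A) l * val m y l (φ (window h (insert l A) l))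
              (decide (l ∈ insert l A)) := by
          simp only [weight]
          rw [prod_range_succ]
        rw [this, weight_insert, hd, window_insert A le_rfl]
      rw [hw]
      simp only [hl, true_and]
      split_ifs <;> simp
  · -- a forced layer
    have hm1 : min (l + 1) m = m := by omega
    have hm2 : min l m = m := by omega
    simp only [rowF, hm1, hm2]
    apply Finset.sum_congr rfl
    intro A hA
    have hlA : l ∉ A := by
      intro hmem
      have := mem_range.mp (mem_powerset.mp hA hmem)
      omega
    rw [hentry, window_succ]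
    have hd : decide (l ∈ A) = false := by simpa using hlA
    rw [hd]
    have hw : weight φ m y A (l + 1) = weight φ m y A l * val m y l (φ (window h A l)) false := by
      simp only [weight]
      rw [prod_range_succ, hd]
    rw [hw]
    simp only [hl, false_and, if_false, add_zero]
    split_ifs <;> simp

/-- The row vector at the start of a block. -/
lemma rowF_zero [NeZero n] (h0 : φ (fun _ => false) = 0) (y : Finset (Edge0 m h n)) (q : Fin n) :
    rowF φ m y 0 q = if q = 0 then 1 else 0 := by
  simp [rowF, weight, window_zero, h0]

lemma weight_eq_ite (y : Finset (Edge0 m h n)) (A : Finset ℕ) :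
    weight φ m y A (m + h) = if Mono φ m A ⊆ y then 1 else 0 := by
  classical
  by_cases hsub : Mono φ m A ⊆ y
  · rw [if_pos hsub]
    apply Finset.prod_eq_one
    intro s hs
    have hs' := mem_range.mp hs
    have hmem : edge φ m A ⟨s, hs'⟩ ∈ y := hsub (mem_image_of_mem _ (mem_univ _))
    have he : ((⟨s, hs'⟩ : Fin (m + h)), φ (window h A s), decide (s ∈ A)) ∈ y := hmem
    simp only [val, dif_pos hs', if_pos he]
  · rw [if_neg hsub]
    obtain ⟨e, he1, he2⟩ := not_subset.mp hsub
    obtain ⟨l, _, rfl⟩ := mem_image.mp he1
    apply Finset.prod_eq_zero (mem_range.mpr l.2)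
    have he : ((⟨l.1, l.2⟩ : Fin (m + h)), φ (window h A l.1), decide (l.1 ∈ A)) ∉ y := he2
    simp only [val, dif_pos l.2, if_neg he]

/-- The sum over all paths of a block of the monomial functions. -/
noncomputable def blockF (y : Finset (Edge0 m h n)) : ZMod 2 :=
  ∑ A ∈ (range m).powerset, (if Mono φ m A ⊆ y then 1 else 0)

/-- The row vector at the end of a block. -/
lemma rowF_end [NeZero n] (h0 : φ (fun _ => false) = 0) (y : Finset (Edge0 m h n)) (q : Fin n) :
    rowF φ m y (m + h) q = (if q = 0 then 1 else 0) * blockF φ m y := by
  have hm : min (m + h) m = m := by omega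
  simp only [rowF, hm, blockF, Finset.mul_sum]
  apply Finset.sum_congr rfl
  intro A hA
  rw [window_end (mem_powerset.mp hA), h0, weight_eq_ite]

section Blocks

variable (B : ℕ) [NeZero n]

/-- The value given to the variable `(t, p, q)` of `IMM_{n,n}` at a point `x`: in the first `B * (m + h)`
layers the entries of the blocks, in the remaining layers the matrix with one entry `1` at `(0, 0)`. -/
noncomputable def assign (x : Finset (Fin B × Edge0 m h n)) (v : ImmVar n) : ZMod 2 :=
  if v.1.1 < B * (m + h) then
    entry φ m (sliceN m B x (v.1.1 / (m + h))) (v.1.1 % (m + h)) v.2.1 v.2.2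
  else if v.2.1 = 0 ∧ v.2.2 = 0 then 1 else 0

/-- The matrix of the layer `t` at `x`, extended by the identity beyond the last layer. -/
noncomputable def layerMat (x : Finset (Fin B × Edge0 m h n)) (t : ℕ) :
    Matrix (Fin n) (Fin n) (ZMod 2) :=
  if ht : t < n then Matrix.of fun p q => assign φ m B x (⟨t, ht⟩, p, q) else 1

/-- The product of the first `t` layers. -/
noncomputable def prodMat (x : Finset (Fin B × Edge0 m h n)) (t : ℕ) :
    Matrix (Fin n) (Fin n) (ZMod 2) :=
  ((List.range t).map (layerMat φ m B x)).prod

lemma prodMat_succ (x : Finset (Fin B × Edge0 m h n)) (t : ℕ) (q : Fin n) :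
    prodMat φ m B x (t + 1) 0 q = ∑ p, prodMat φ m B x t 0 p * layerMat φ m B x t p q := by
  simp only [prodMat]
  rw [List.range_succ, List.map_append, List.prod_append]
  simp [Matrix.mul_apply]

lemma eval_imm (x : Finset (Fin B × Edge0 m h n)) :
    eval (assign φ m B x) (imm (ZMod 2) n) = prodMat φ m B x n 0 0 := by
  have h1 : prodMat φ m B x n = (List.ofFn (fun t : Fin n => layerMat φ m B x t.1)).prod := by
    simp only [prodMat]
    congr 1
    apply List.ext_getElem
    · simp
    · intro i h2 h3
      simp
  rw [h1, imm]
  have h2 := map_list_prod (RingHom.mapMatrix (eval (assign φ m B x))) (List.ofFn (immMatrix (ZMod 2) n))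
  have h3 : (RingHom.mapMatrix (eval (assign φ m B x))) (List.ofFn (immMatrix (ZMod 2) n)).prod 0 0 =
      eval (assign φ m B x) ((List.ofFn (immMatrix (ZMod 2) n)).prod 0 0) := by
    simp [RingHom.mapMatrix_apply]
  rw [← h3, h2, List.map_ofFn]
  have h4 : (⇑(RingHom.mapMatrix (eval (assign φ m B x))) ∘ immMatrix (ZMod 2) n) =
      fun t : Fin n => layerMat φ m B x t.1 := by
    funext t
    ext p q
    simp [immMatrix, layerMat, t.2, RingHom.mapMatrix_apply]
  rw [h4]

/-- The product over the finished blocks. -/
noncomputable def doneF (x : Finset (Fin B × Edge0 m h n)) (i : ℕ) : ZMod 2 :=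
  ∏ i' ∈ range i, blockF φ m (sliceN m B x i')

lemma prodMat_block (hφ : Function.Injective φ) (h0 : φ (fun _ => false) = 0)
    (hn : B * (m + h) ≤ n) (x : Finset (Fin B × Edge0 m h n)) {i : ℕ} (hi : i < B)
    (hstart : ∀ q, prodMat φ m B x (i * (m + h)) 0 q = doneF φ m B x i * if q = 0 then 1 else 0)
    {l : ℕ} (hl : l ≤ m + h) (q : Fin n) :
    prodMat φ m B x (i * (m + h) + l) 0 q =
      doneF φ m B x i * rowF φ m (sliceN m B x i) l q := by
  induction l generalizing q with
  | zero =>
    rw [add_zero, hstart, rowF_zero φ m h0]
  | succ l ih =>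
    have hl' : l < m + h := by omega
    have hD : 0 < m + h := by omega
    have ht : i * (m + h) + l < B * (m + h) := by
      have : (i + 1) * (m + h) ≤ B * (m + h) := Nat.mul_le_mul_right _ hi
      rw [add_mul] at this
      omega
    have htn : i * (m + h) + l < n := by omega
    have hdiv : (i * (m + h) + l) / (m + h) = i := by
      rw [add_comm, Nat.add_mul_div_right _ _ hD, Nat.div_eq_of_lt hl', zero_add]
    have hmod : (i * (m + h) + l) % (m + h) = l := by
      rw [add_comm, Nat.add_mul_mod_self_right, Nat.mod_eq_of_lt hl']
    rw [← add_assoc, prodMat_succ]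
    have hlayer : ∀ p, layerMat φ m B x (i * (m + h) + l) p q =
        entry φ m (sliceN m B x i) l p q := by
      intro p
      simp only [layerMat, dif_pos htn, Matrix.of_apply, assign, if_pos ht, hdiv, hmod]
    simp only [hlayer]
    have ih' : ∀ p, prodMat φ m B x (i * (m + h) + l) 0 p =
        doneF φ m B x i * rowF φ m (sliceN m B x i) l p := fun p => ih (by omega) p
    simp only [ih', mul_assoc]
    rw [← Finset.mul_sum, row_step φ m hφ]

lemma prodMat_done (hφ : Function.Injective φ) (h0 : φ (fun _ => false) = 0)
    (hn : B * (m + h) ≤ n) (x : Finset (Fin B × Edge0 m h n)) {i : ℕ} (hi : i ≤ B) (q : Fin n) :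
    prodMat φ m B x (i * (m + h)) 0 q = doneF φ m B x i * if q = 0 then 1 else 0 := by
  induction i generalizing q with
  | zero =>
    simp only [zero_mul, prodMat, List.range_zero, List.map_nil, List.prod_nil, doneF, range_zero,
      prod_empty, one_mul]
    rw [Matrix.one_apply]
    by_cases hq : q = 0
    · simp [hq]
    · simp [hq, Ne.symm hq]
  | succ i ih =>
    have hi' : i < B := by omega
    have h1 := prodMat_block φ m B hφ h0 hn x hi' (fun q => ih (by omega) q) le_rfl q
    rw [add_mul, one_mul, h1, rowF_end φ m h0]
    simp only [doneF, prod_range_succ]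
    ring

lemma prodMat_pad (hφ : Function.Injective φ) (h0 : φ (fun _ => false) = 0)
    (hn : B * (m + h) ≤ n) (x : Finset (Fin B × Edge0 m h n)) {j : ℕ} (hj : B * (m + h) + j ≤ n)
    (q : Fin n) :
    prodMat φ m B x (B * (m + h) + j) 0 q = doneF φ m B x B * if q = 0 then 1 else 0 := by
  induction j generalizing q with
  | zero => exact prodMat_done φ m B hφ h0 hn x le_rfl q
  | succ j ih =>
    have ht : B * (m + h) + j < n := by omega
    rw [← add_assoc, prodMat_succ]
    have hlayer : ∀ p, layerMat φ m B x (B * (m + h) + j) p q =
        if p = 0 ∧ q = 0 then 1 else 0 := by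
      intro p
      have : ¬ (B * (m + h) + j < B * (m + h)) := by omega
      simp only [layerMat, dif_pos ht, Matrix.of_apply, assign, if_neg this]
    simp only [hlayer]
    rw [Finset.sum_eq_single 0]
    · rw [ih (by omega)]
      by_cases hq : q = 0 <;> simp [hq]
    · intro p _ hp
      simp [hp]
    · intro hc; exact absurd (mem_univ _) hc

/-- The value of `IMM_{n,n}` at the assignment is the product over the blocks of the block sums. -/
theorem eval_imm_eq_prod (hφ : Function.Injective φ) (h0 : φ (fun _ => false) = 0)
    (hn : B * (m + h) ≤ n) (x : Finset (Fin B × Edge0 m h n)) :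
    eval (assign φ m B x) (imm (ZMod 2) n) = doneF φ m B x B := by
  rw [eval_imm]
  have h1 := prodMat_pad φ m B hφ h0 hn x (j := n - B * (m + h)) (by omega) 0
  have h2 : B * (m + h) + (n - B * (m + h)) = n := by omega
  rw [h2] at h1
  rw [h1]
  simp

/-- The coordinates of the assignment have degree at most one. -/
theorem assign_mem_DegLE (v : ImmVar n) :
    (fun x => assign φ m B x v) ∈ DegLE (Fin B × Edge0 m h n) 1 := by
  classical
  by_cases hv : v.1.1 < B * (m + h)
  · have hi : v.1.1 / (m + h) < B := Nat.div_lt_of_lt_mul (by rw [mul_comm]; exact hv)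
    have hval : ∀ (l : ℕ) (p : Fin n) (c : Bool),
        (fun x => val m (sliceN m B x (v.1.1 / (m + h))) l p c) ∈
          DegLE (Fin B × Edge0 m h n) 1 := by
      intro l p c
      by_cases hl : l < m + h
      · have : (fun x : Finset (Fin B × Edge0 m h n) =>
            val m (sliceN m B x (v.1.1 / (m + h))) l p c) =
            fun x => if ((⟨v.1.1 / (m + h), hi⟩ : Fin B), ((⟨l, hl⟩ : Fin (m + h)), p, c)) ∈ x then
              (1 : ZMod 2) else 0 := by
          funext x
          simp only [val, dif_pos hl, sliceN, mem_filter, mem_univ, true_and]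
          simp [hi]
        rw [this]
        exact mem_fn_mem_DegLE _
      · have : (fun x : Finset (Fin B × Edge0 m h n) =>
            val m (sliceN m B x (v.1.1 / (m + h))) l p c) = 0 := by
          funext x
          simp [val, hl]
        rw [this]
        exact Submodule.zero_mem _
    have h1 : (fun x => assign φ m B x v) =
        (fun x => (if v.2.2 = nxt φ v.2.1 false then (1 : ZMod 2) else 0) *
            val m (sliceN m B x (v.1.1 / (m + h))) (v.1.1 % (m + h)) v.2.1 false) +
          (fun x => (if v.1.1 % (m + h) < m ∧ v.2.2 = nxt φ v.2.1 true then (1 : ZMod 2) else 0) *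
            val m (sliceN m B x (v.1.1 / (m + h))) (v.1.1 % (m + h)) v.2.1 true) := by
      funext x
      simp only [assign, if_pos hv, entry, Pi.add_apply]
      congr 1 <;> split_ifs <;> simp
    rw [h1]
    apply add_mem_DegLE
    · exact smul_mem_DegLE (if v.2.2 = nxt φ v.2.1 false then (1 : ZMod 2) else 0) (hval _ _ _)
    · exact smul_mem_DegLE (if v.1.1 % (m + h) < m ∧ v.2.2 = nxt φ v.2.1 true then (1 : ZMod 2) else 0)
        (hval _ _ _)
  · have h1 : (fun x => assign φ m B x v) =
        (if v.2.1 = 0 ∧ v.2.2 = 0 then (1 : ZMod 2) else 0) • (1 : Finset (Fin B × Edge0 m h n) → ZMod 2) := by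
      funext x
      simp only [assign, if_neg hv, Pi.smul_apply, Pi.one_apply, smul_eq_mul, mul_one]
    rw [h1]
    exact smul_mem_DegLE _ (one_mem_DegLE 1)

end Blocks

end Vale.Agent.Lib.P346
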