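import Mathlib

/-!
The second moment recursion for pairs of walks in a finite abelian group, and the choice of the steps
level by level, by averaging.
-/

namespace Vale.Agent.Lib.P346

open Finset

section Mass

/-- The sum of the weights of the letters. -/
lemma mass_one (b : ℕ) : ∑ a : Fin b, ((1 : ℚ) / 2) ^ (a.1 + 1) = 1 - (1 / 2) ^ b := by
  rw [Fin.sum_univ_eq_sum_range (fun i => ((1 : ℚ) / 2) ^ (i + 1)) b]
  induction b with
  | zero => simp
  | succ b ih =>
    rw [Finset.sum_range_succ, ih]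
    ring

lemma mass_one_le (b : ℕ) : ∑ a : Fin b, ((1 : ℚ) / 2) ^ (a.1 + 1) ≤ 1 := by
  rw [mass_one]
  have : (0 : ℚ) ≤ (1 / 2) ^ b := by positivity
  linarith

/-- The sum of the weights of the pairs of distinct letters, as a double sum over a range. -/
lemma mass_two_range (b : ℕ) :
    ∑ i ∈ range b, ∑ j ∈ range b, (if i ≠ j then ((1 : ℚ) / 2) ^ (max i j + 1) else 0) =
      2 - 2 * (b + 1) * (1 / 2) ^ b := by
  induction b with
  | zero => simp
  | succ b ih =>
    have h1 : ∑ i ∈ range (b + 1), ∑ j ∈ range (b + 1),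
        (if i ≠ j then ((1 : ℚ) / 2) ^ (max i j + 1) else 0) =
        ∑ i ∈ range b, ∑ j ∈ range b, (if i ≠ j then ((1 : ℚ) / 2) ^ (max i j + 1) else 0) +
        ∑ i ∈ range b, ((1 : ℚ) / 2) ^ (b + 1) + ∑ j ∈ range b, ((1 : ℚ) / 2) ^ (b + 1) := by
      rw [Finset.sum_range_succ]
      have h2 : ∀ i ∈ range b, ∑ j ∈ range (b + 1), (if i ≠ j then ((1 : ℚ) / 2) ^ (max i j + 1) else 0) =
          ∑ j ∈ range b, (if i ≠ j then ((1 : ℚ) / 2) ^ (max i j + 1) else 0) + (1 / 2) ^ (b + 1) := by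
        intro i hi
        have hi' := mem_range.mp hi
        rw [Finset.sum_range_succ, if_pos (by omega), max_eq_right (by omega)]
      rw [Finset.sum_congr rfl h2, Finset.sum_add_distrib, Finset.sum_range_succ]
      have h3 : ∑ j ∈ range b, (if b ≠ j then ((1 : ℚ) / 2) ^ (max b j + 1) else 0) =
          ∑ j ∈ range b, ((1 : ℚ) / 2) ^ (b + 1) := by
        apply Finset.sum_congr rfl
        intro j hj
        have hj' := mem_range.mp hj
        rw [if_pos (by omega), max_eq_left (by omega)]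
      rw [h3]
      simp
    rw [h1, ih]
    simp only [sum_const, card_range, nsmul_eq_mul]
    push_cast
    ring

lemma mass_two_le (b : ℕ) :
    ∑ a : Fin b, ∑ a' : Fin b, (if a ≠ a' then ((1 : ℚ) / 2) ^ (max a.1 a'.1 + 1) else 0) ≤ 2 := by
  have h1 : ∑ a : Fin b, ∑ a' : Fin b, (if a ≠ a' then ((1 : ℚ) / 2) ^ (max a.1 a'.1 + 1) else 0) =
      ∑ i ∈ range b, ∑ j ∈ range b, (if i ≠ j then ((1 : ℚ) / 2) ^ (max i j + 1) else 0) := by
    rw [← Fin.sum_univ_eq_sum_range (fun i => ∑ j ∈ range b,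
      (if i ≠ j then ((1 : ℚ) / 2) ^ (max i j + 1) else 0)) b]
    apply Finset.sum_congr rfl
    intro a _
    rw [← Fin.sum_univ_eq_sum_range (fun j => (if a.1 ≠ j then ((1 : ℚ) / 2) ^ (max a.1 j + 1) else 0)) b]
    apply Finset.sum_congr rfl
    intro a' _
    simp only [ne_eq, Fin.ext_iff]
  rw [h1, mass_two_range]
  have : (0 : ℚ) ≤ 2 * (b + 1) * (1 / 2) ^ b := by positivity
  linarith

lemma mass_two_nonneg (b : ℕ) :
    0 ≤ ∑ a : Fin b, ∑ a' : Fin b, (if a ≠ a' then ((1 : ℚ) / 2) ^ (max a.1 a'.1 + 1) else 0) := by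
  apply Finset.sum_nonneg
  intro a _
  apply Finset.sum_nonneg
  intro a' _
  split_ifs <;> positivity

end Mass

variable {G : Type} [AddCommGroup G] [Fintype G] [DecidableEq G] {b : ℕ}

/-- The weight of a pair of letters at a pair of vertices with difference `δ`. -/
def wt (δ : G) (a a' : Fin b) : ℚ :=
  if δ = 0 then (1 / 2) ^ (max a.1 a'.1 + 1) else (1 / 2) ^ (a.1 + 1 + (a'.1 + 1))

omit [Fintype G] in
lemma wt_nonneg (δ : G) (a a' : Fin b) : 0 ≤ wt δ a a' := by
  unfold wt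
  split_ifs <;> positivity

/-- The recursion for the second moment, in terms of the difference of the two walks. -/
def pairA (μ : ℕ → Fin b → G) : ℕ → ℕ → G → ℚ
  | 0, _, _ => 1
  | L + 1, t, δ => ∑ a, ∑ a', wt δ a a' * pairA μ L (t + 1) (δ + μ t a - μ t a')

omit [Fintype G] in
lemma pairA_nonneg (μ : ℕ → Fin b → G) (L t : ℕ) (δ : G) : 0 ≤ pairA μ L t δ := by
  induction L generalizing t δ with
  | zero => simp [pairA]
  | succ L ih =>
    simp only [pairA]
    apply Finset.sum_nonneg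
    intro a _
    apply Finset.sum_nonneg
    intro a' _
    exact mul_nonneg (wt_nonneg _ _ _) (ih _ _)

/-- Prepending a level. -/
def prepend (m : Fin b → G) (μ : ℕ → Fin b → G) : ℕ → Fin b → G
  | 0 => m
  | t + 1 => μ t

omit [Fintype G] in
lemma pairA_prepend (m : Fin b → G) (μ : ℕ → Fin b → G) (L t : ℕ) (δ : G) :
    pairA (prepend m μ) L (t + 1) δ = pairA μ L t δ := by
  induction L generalizing t δ with
  | zero => simp [pairA]
  | succ L ih =>
    simp only [pairA, prepend, ih]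

omit [DecidableEq G] in
/-- The average over all steps of a function of the difference of two steps. -/
lemma sum_shift_diff (B : G → ℚ) {a a' : Fin b} (h : a ≠ a') :
    (Fintype.card G : ℚ) * ∑ m : Fin b → G, B (m a - m a') =
      (Fintype.card (Fin b → G) : ℚ) * ∑ z, B z := by
  classical
  have h1 : ∀ g : G, ∑ m : Fin b → G, B (m a - m a') = ∑ m : Fin b → G, B (m a - m a' + g) := by
    intro g
    rw [← Equiv.sum_comp (Equiv.addRight (Pi.single a g : Fin b → G))
      (fun m : Fin b → G => B (m a - m a'))]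
    apply Finset.sum_congr rfl
    intro m _
    simp only [Equiv.coe_addRight, Pi.add_apply, Pi.single_eq_same, Pi.single_eq_of_ne h.symm, add_zero]
    congr 1
    abel
  have h2 : (Fintype.card G : ℚ) * ∑ m : Fin b → G, B (m a - m a') =
      ∑ g : G, ∑ m : Fin b → G, B (m a - m a' + g) := by
    rw [← Finset.sum_congr rfl (fun g _ => h1 g)]
    simp
  rw [h2, Finset.sum_comm]
  have h3 : ∀ m : Fin b → G, ∑ g : G, B (m a - m a' + g) = ∑ z, B z := by
    intro m
    exact Equiv.sum_comp (Equiv.addLeft (m a - m a')) B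
  rw [Finset.sum_congr rfl (fun m _ => h3 m)]
  simp

/-- There is a choice of the steps at one level with at most the average weight on the off diagonal. -/
lemma exists_step (B : G → ℚ) (hB : ∀ z, 0 ≤ B z) :
    ∃ m : Fin b → G, ∑ a, ∑ a', (if a ≠ a' then ((1 : ℚ) / 2) ^ (max a.1 a'.1 + 1) else 0) * B (m a - m a') ≤
      2 * ((∑ z, B z) / Fintype.card G) := by
  classical
  have hw : (0 : ℚ) < Fintype.card G := by
    exact_mod_cast Fintype.card_pos
  set B' : ℚ := (∑ z, B z) / Fintype.card G with hB'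
  have hB'nn : 0 ≤ B' := div_nonneg (Finset.sum_nonneg (fun z _ => hB z)) hw.le
  set M2 : ℚ := ∑ a : Fin b, ∑ a' : Fin b, (if a ≠ a' then ((1 : ℚ) / 2) ^ (max a.1 a'.1 + 1) else 0)
    with hM2
  have hsum : ∑ m : Fin b → G, ∑ a, ∑ a', (if a ≠ a' then ((1 : ℚ) / 2) ^ (max a.1 a'.1 + 1) else 0) *
      B (m a - m a') ≤ ∑ _m : Fin b → G, M2 * B' := by
    have h1 : ∑ m : Fin b → G, ∑ a, ∑ a', (if a ≠ a' then ((1 : ℚ) / 2) ^ (max a.1 a'.1 + 1) else 0) *
        B (m a - m a') = ∑ a, ∑ a', (if a ≠ a' then ((1 : ℚ) / 2) ^ (max a.1 a'.1 + 1) else 0) *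
          ∑ m : Fin b → G, B (m a - m a') := by
      rw [Finset.sum_comm]
      apply Finset.sum_congr rfl
      intro a _
      rw [Finset.sum_comm]
      apply Finset.sum_congr rfl
      intro a' _
      rw [Finset.mul_sum]
    have h2 : ∀ a a' : Fin b, (if a ≠ a' then ((1 : ℚ) / 2) ^ (max a.1 a'.1 + 1) else 0) *
        ∑ m : Fin b → G, B (m a - m a') =
        (if a ≠ a' then ((1 : ℚ) / 2) ^ (max a.1 a'.1 + 1) else 0) *
          ((Fintype.card (Fin b → G) : ℚ) * B') := by
      intro a a'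
      by_cases haa : a ≠ a'
      · have h3 := sum_shift_diff B haa
        have h4 : ∑ m : Fin b → G, B (m a - m a') = (Fintype.card (Fin b → G) : ℚ) * B' := by
          rw [hB']
          field_simp
          linarith
        rw [h4]
      · rw [if_neg haa, zero_mul, zero_mul]
    rw [h1]
    simp_rw [h2]
    rw [Finset.sum_const, nsmul_eq_mul, card_univ]
    simp only [← Finset.sum_mul, ← hM2]
    apply le_of_eq
    ring
  obtain ⟨m, _, hm⟩ := Finset.exists_le_of_sum_le (s := (univ : Finset (Fin b → G)))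
    univ_nonempty hsum
  refine ⟨m, hm.trans ?_⟩
  exact mul_le_mul_of_nonneg_right (mass_two_le b) hB'nn

/-- One step of the recursion, at difference zero. -/
lemma step_zero (B : G → ℚ) (hB : ∀ z, 0 ≤ B z) (m : Fin b → G)
    (hm : ∑ a, ∑ a', (if a ≠ a' then ((1 : ℚ) / 2) ^ (max a.1 a'.1 + 1) else 0) * B (m a - m a') ≤
      2 * ((∑ z, B z) / Fintype.card G)) :
    ∑ a, ∑ a', wt (0 : G) a a' * B (0 + m a - m a') ≤ B 0 + 2 * ((∑ z, B z) / Fintype.card G) := by
  have h1 : ∀ a a' : Fin b, wt (0 : G) a a' * B (0 + m a - m a') =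
      (if a = a' then ((1 : ℚ) / 2) ^ (a.1 + 1) * B 0 else 0) +
        (if a ≠ a' then ((1 : ℚ) / 2) ^ (max a.1 a'.1 + 1) else 0) * B (m a - m a') := by
    intro a a'
    by_cases h : a = a'
    · subst h
      simp [wt]
    · simp [wt, h]
  simp_rw [h1, Finset.sum_add_distrib]
  have h2 : ∑ a : Fin b, ∑ a' : Fin b, (if a = a' then ((1 : ℚ) / 2) ^ (a.1 + 1) * B 0 else 0) ≤ B 0 := by
    have h3 : ∑ a : Fin b, ∑ a' : Fin b, (if a = a' then ((1 : ℚ) / 2) ^ (a.1 + 1) * B 0 else 0) =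
        (∑ a : Fin b, ((1 : ℚ) / 2) ^ (a.1 + 1)) * B 0 := by
      rw [Finset.sum_mul]
      apply Finset.sum_congr rfl
      intro a _
      simp
    rw [h3]
    calc _ ≤ 1 * B 0 := mul_le_mul_of_nonneg_right (mass_one_le b) (hB 0)
      _ = B 0 := one_mul _
  linarith

/-- One step of the recursion, for the sum over all differences. -/
lemma step_sum (B : G → ℚ) (hB : ∀ z, 0 ≤ B z) (m : Fin b → G) :
    ∑ δ, ∑ a, ∑ a', wt δ a a' * B (δ + m a - m a') ≤
      ∑ a, ∑ a', wt (0 : G) a a' * B (0 + m a - m a') + ∑ z, B z := by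
  classical
  have h1 : ∑ δ, ∑ a, ∑ a', wt δ a a' * B (δ + m a - m a') =
      ∑ a, ∑ a', wt (0 : G) a a' * B (0 + m a - m a') +
        ∑ δ ∈ univ.erase (0 : G), ∑ a, ∑ a', wt δ a a' * B (δ + m a - m a') :=
    (Finset.add_sum_erase univ (fun δ => ∑ a, ∑ a', wt δ a a' * B (δ + m a - m a')) (mem_univ 0)).symm
  rw [h1]
  have h2 : ∑ δ ∈ univ.erase (0 : G), ∑ a, ∑ a', wt δ a a' * B (δ + m a - m a') ≤ ∑ z, B z := by
    have h3 : ∀ δ ∈ univ.erase (0 : G), ∑ a, ∑ a', wt δ a a' * B (δ + m a - m a') =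
        ∑ a : Fin b, ∑ a' : Fin b, ((1 : ℚ) / 2) ^ (a.1 + 1 + (a'.1 + 1)) * B (δ + m a - m a') := by
      intro δ hδ
      have hne : δ ≠ 0 := (mem_erase.mp hδ).1
      simp [wt, hne]
    rw [Finset.sum_congr rfl h3]
    have h4 : ∑ δ ∈ univ.erase (0 : G), ∑ a : Fin b, ∑ a' : Fin b,
        ((1 : ℚ) / 2) ^ (a.1 + 1 + (a'.1 + 1)) * B (δ + m a - m a') ≤
        ∑ δ : G, ∑ a : Fin b, ∑ a' : Fin b,
          ((1 : ℚ) / 2) ^ (a.1 + 1 + (a'.1 + 1)) * B (δ + m a - m a') := by
      apply Finset.sum_le_sum_of_subset_of_nonneg (subset_univ _)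
      intro δ _ _
      apply Finset.sum_nonneg
      intro a _
      apply Finset.sum_nonneg
      intro a' _
      exact mul_nonneg (by positivity) (hB _)
    refine h4.trans ?_
    have h6 : ∀ a a' : Fin b, ∑ δ, B (δ + m a - m a') = ∑ z, B z := by
      intro a a'
      rw [← Equiv.sum_comp (Equiv.addRight (m a - m a')) B]
      apply Finset.sum_congr rfl
      intro δ _
      simp only [Equiv.coe_addRight]
      congr 1
      abel
    have h5 : ∑ δ : G, ∑ a : Fin b, ∑ a' : Fin b,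
        ((1 : ℚ) / 2) ^ (a.1 + 1 + (a'.1 + 1)) * B (δ + m a - m a') =
        ∑ a : Fin b, ∑ a' : Fin b, ((1 : ℚ) / 2) ^ (a.1 + 1 + (a'.1 + 1)) * ∑ z, B z := by
      rw [Finset.sum_comm]
      apply Finset.sum_congr rfl
      intro a _
      rw [Finset.sum_comm]
      apply Finset.sum_congr rfl
      intro a' _
      rw [Finset.mul_sum]
      rw [← Finset.mul_sum, ← Finset.mul_sum, h6]
    rw [h5]
    have h7 : ∑ a : Fin b, ∑ a' : Fin b, ((1 : ℚ) / 2) ^ (a.1 + 1 + (a'.1 + 1)) * ∑ z, B z =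
        (∑ a : Fin b, ((1 : ℚ) / 2) ^ (a.1 + 1)) * (∑ a' : Fin b, ((1 : ℚ) / 2) ^ (a'.1 + 1)) *
          ∑ z, B z := by
      rw [Finset.sum_mul_sum, Finset.sum_mul]
      apply Finset.sum_congr rfl
      intro a _
      rw [Finset.sum_mul]
      apply Finset.sum_congr rfl
      intro a' _
      rw [pow_add]
    rw [h7]
    have h8 := mass_one_le b
    have h9 : (0 : ℚ) ≤ ∑ a : Fin b, ((1 : ℚ) / 2) ^ (a.1 + 1) :=
      Finset.sum_nonneg (fun a _ => by positivity)
    have h10 : (∑ a : Fin b, ((1 : ℚ) / 2) ^ (a.1 + 1)) * (∑ a' : Fin b, ((1 : ℚ) / 2) ^ (a'.1 + 1)) ≤ 1 := by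
      nlinarith
    have h11 : (0 : ℚ) ≤ ∑ z, B z := Finset.sum_nonneg (fun z _ => hB z)
    calc _ ≤ 1 * ∑ z, B z := mul_le_mul_of_nonneg_right h10 h11
      _ = ∑ z, B z := one_mul _
  linarith

/-- The levels can be chosen one by one so that the potential grows by a factor `1 + 2 / r` at most,
where `r ^ 2` is at most the size of the group. -/
theorem exists_shifts {r : ℕ} (hr : 2 ≤ r) (hw : r ^ 2 ≤ Fintype.card G) (L : ℕ) :
    ∃ μ : ℕ → Fin b → G,
      pairA μ L 0 0 + 2 * r * ((∑ δ, pairA μ L 0 δ) / Fintype.card G) ≤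
        (1 + 2 / (r : ℚ)) ^ L * (1 + 2 * r) := by
  have hwpos : (0 : ℚ) < Fintype.card G := by
    exact_mod_cast Fintype.card_pos
  have hrq : (2 : ℚ) ≤ r := by exact_mod_cast hr
  have hrpos : (0 : ℚ) < r := by linarith
  have hwr : (r : ℚ) ^ 2 ≤ Fintype.card G := by exact_mod_cast hw
  induction L with
  | zero =>
    refine ⟨fun _ _ => 0, ?_⟩
    simp only [pairA, pow_zero, one_mul]
    have : (∑ _δ : G, (1 : ℚ)) / Fintype.card G = 1 := by
      simp only [sum_const, card_univ, nsmul_eq_mul, mul_one]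
      exact div_self hwpos.ne'
    rw [this]
    linarith
  | succ L ih =>
    obtain ⟨μ, hμ⟩ := ih
    set B : G → ℚ := pairA μ L 0 with hB
    have hBnn : ∀ z, 0 ≤ B z := fun z => pairA_nonneg μ L 0 z
    obtain ⟨m, hm⟩ := exists_step (b := b) B hBnn
    refine ⟨prepend m μ, ?_⟩
    have hA : ∀ δ, pairA (prepend m μ) (L + 1) 0 δ = ∑ a, ∑ a', wt δ a a' * B (δ + m a - m a') := by
      intro δ
      simp only [pairA, prepend, hB]
      apply Finset.sum_congr rfl
      intro a _
      apply Finset.sum_congr rfl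
      intro a' _
      rw [pairA_prepend]
    simp_rw [hA]
    have h0 := step_zero B hBnn m hm
    have h1 := step_sum B hBnn m
    set s' := ∑ a, ∑ a', wt (0 : G) a a' * B (0 + m a - m a') with hs'
    set t' := ∑ δ, ∑ a, ∑ a', wt δ a a' * B (δ + m a - m a') with ht'
    set B0 := B 0 with hB0
    set Bbar := (∑ z, B z) / Fintype.card G with hBbar
    have hBbarnn : 0 ≤ Bbar := div_nonneg (Finset.sum_nonneg (fun z _ => hBnn z)) hwpos.le
    have hB0nn : 0 ≤ B0 := hBnn 0
    have ht : t' / Fintype.card G ≤ s' / Fintype.card G + Bbar := by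
      rw [hBbar, ← add_div]
      exact div_le_div_of_nonneg_right h1 hwpos.le
    -- the coefficient of `s'`
    have hc1 : 2 * (r : ℚ) / Fintype.card G ≤ 2 / r := by
      rw [div_le_div_iff₀ hwpos hrpos]
      nlinarith
    have hc2 : (r : ℚ) / Fintype.card G ≤ 1 / 2 := by
      rw [div_le_div_iff₀ hwpos (by norm_num)]
      nlinarith
    have hcnn : 0 ≤ 2 * (r : ℚ) / Fintype.card G := by positivity
    have hs'nn : 0 ≤ s' := by
      apply Finset.sum_nonneg
      intro a _
      apply Finset.sum_nonneg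
      intro a' _
      exact mul_nonneg (wt_nonneg _ _ _) (hBnn _)
    have hmain : s' + 2 * r * (t' / Fintype.card G) ≤ (1 + 2 / (r : ℚ)) * (B0 + 2 * r * Bbar) := by
      have h2 : s' + 2 * r * (t' / Fintype.card G) ≤
          (1 + 2 * (r : ℚ) / Fintype.card G) * s' + 2 * r * Bbar := by
        have h3 : 2 * (r : ℚ) * (t' / Fintype.card G) ≤ 2 * r * (s' / Fintype.card G + Bbar) :=
          mul_le_mul_of_nonneg_left ht (by positivity)
        have h4 : 2 * (r : ℚ) * (s' / Fintype.card G + Bbar) =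
            (2 * (r : ℚ) / Fintype.card G) * s' + 2 * r * Bbar := by
          field_simp
        linarith
      have h5 : (1 + 2 * (r : ℚ) / Fintype.card G) * s' ≤
          (1 + 2 * (r : ℚ) / Fintype.card G) * (B0 + 2 * Bbar) :=
        mul_le_mul_of_nonneg_left h0 (by positivity)
      have h6 : (1 + 2 * (r : ℚ) / Fintype.card G) * B0 ≤ (1 + 2 / (r : ℚ)) * B0 :=
        mul_le_mul_of_nonneg_right (by linarith) hB0nn
      have h7 : (1 + 2 * (r : ℚ) / Fintype.card G) * (2 * Bbar) + 2 * r * Bbar ≤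
          (1 + 2 / (r : ℚ)) * (2 * r * Bbar) := by
        have e1 : (1 + 2 / (r : ℚ)) * (2 * r * Bbar) = (2 * r + 4) * Bbar := by
          field_simp
          ring
        have e2 : (1 + 2 * (r : ℚ) / Fintype.card G) * (2 * Bbar) + 2 * r * Bbar =
            (2 * r + 2 + 2 * (2 * (r : ℚ) / Fintype.card G)) * Bbar := by
          ring
        rw [e1, e2]
        apply mul_le_mul_of_nonneg_right _ hBbarnn
        have : 2 * (r : ℚ) / Fintype.card G = 2 * ((r : ℚ) / Fintype.card G) := by ring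
        linarith
      nlinarith
    calc s' + 2 * r * (t' / Fintype.card G) ≤ (1 + 2 / (r : ℚ)) * (B0 + 2 * r * Bbar) := hmain
      _ ≤ (1 + 2 / (r : ℚ)) * ((1 + 2 / (r : ℚ)) ^ L * (1 + 2 * r)) :=
          mul_le_mul_of_nonneg_left hμ (by positivity)
      _ = (1 + 2 / (r : ℚ)) ^ (L + 1) * (1 + 2 * r) := by ring

end Vale.Agent.Lib.P346
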