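import Mathlib

/-!
Walks in an abelian group with prescribed steps, and sums over all walks as iterated sums.
-/

namespace Vale.Agent.Lib.P346

open Finset

section Walk

variable {G X : Type} [AddCommGroup G]

/-- The position at time `i` of the walk started at `u` at time `t`, with the letters `w`. -/
def pos (μ : ℕ → X → G) (t : ℕ) (u : G) {L : ℕ} (w : Fin L → X) (i : Fin L) : G :=
  u + ∑ j : Fin L, if j < i then μ (t + j.1) (w j) else 0

lemma pos_cons_zero (μ : ℕ → X → G) (t : ℕ) (u : G) {L : ℕ} (a : X) (w : Fin L → X) :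
    pos μ t u (Fin.cons a w : Fin (L + 1) → X) 0 = u := by
  simp [pos]

lemma pos_cons_succ (μ : ℕ → X → G) (t : ℕ) (u : G) {L : ℕ} (a : X) (w : Fin L → X) (i : Fin L) :
    pos μ t u (Fin.cons a w : Fin (L + 1) → X) i.succ = pos μ (t + 1) (u + μ t a) w i := by
  simp only [pos]
  rw [Fin.sum_univ_succ]
  simp only [Fin.succ_lt_succ_iff, Fin.cons_succ, Fin.cons_zero, Fin.val_zero, add_zero, Fin.val_succ]
  have h0 : (0 : Fin (L + 1)) < i.succ := Fin.succ_pos i
  rw [if_pos h0, add_assoc]
  congr 2
  apply Finset.sum_congr rfl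
  intro j _
  rw [show t + (j.1 + 1) = t + 1 + j.1 by ring]

/-- Positions agree as long as the letters before agree. -/
lemma pos_congr (μ : ℕ → X → G) (t : ℕ) (u : G) {L : ℕ} {w v : Fin L → X} (i : Fin L)
    (h : ∀ j, j < i → w j = v j) : pos μ t u w i = pos μ t u v i := by
  simp only [pos]
  congr 1
  apply Finset.sum_congr rfl
  intro j _
  by_cases hj : j < i
  · rw [if_pos hj, if_pos hj, h j hj]
  · rw [if_neg hj, if_neg hj]

variable [Fintype X] {R : Type} [CommSemiring R]

/-- The iterated sum over walks of length `L` from time `t` at `u`. -/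
def pathSum (μ : ℕ → X → G) (c : ℕ → G → X → R) : ℕ → ℕ → G → R
  | 0, _, _ => 1
  | L + 1, t, u => ∑ a, c t u a * pathSum μ c L (t + 1) (u + μ t a)

/-- A sum over functions on `Fin (L + 1)` as an iterated sum. -/
lemma sum_fin_succ {A : Type} [AddCommMonoid A] {L : ℕ} (f : (Fin (L + 1) → X) → A) :
    ∑ w, f w = ∑ a, ∑ v : Fin L → X, f (Fin.cons a v) := by
  rw [← Fintype.sum_prod_type']
  exact (Fintype.sum_equiv (Fin.consEquiv (fun _ => X)) _ _ (fun _ => rfl)).symm

/-- The iterated sum is the sum over all words of the product along the walk. -/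
theorem pathSum_eq (μ : ℕ → X → G) (c : ℕ → G → X → R) (L t : ℕ) (u : G) :
    pathSum μ c L t u = ∑ w : Fin L → X, ∏ i, c (t + i.1) (pos μ t u w i) (w i) := by
  induction L generalizing t u with
  | zero => simp [pathSum]
  | succ L ih =>
    rw [sum_fin_succ]
    simp only [pathSum]
    apply Finset.sum_congr rfl
    intro a _
    rw [ih, Finset.mul_sum]
    apply Finset.sum_congr rfl
    intro v _
    rw [Fin.prod_univ_succ]
    simp only [Fin.val_zero, add_zero, pos_cons_zero, Fin.cons_zero, Fin.cons_succ, pos_cons_succ,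
      Fin.val_succ]
    congr 1
    apply Finset.prod_congr rfl
    intro i _
    rw [show t + (i.1 + 1) = t + 1 + i.1 by ring]

end Walk

end Vale.Agent.Lib.P346
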