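import Vale.Agent.Lib.P346.Greedy
import Vale.Agent.Lib.P346.Walk
import Vale.Agent.Lib.P346.Shift

/-!
The walks in a layered graph, the sets of edges that make a walk the first walk of a row, and the first
and second moments of the number of such walks. This gives many subsets with distinct leading terms.
-/

namespace Vale.Agent.Lib.P346

open Finset

section Key

variable {E : Type} [DecidableEq E]

/-- The key of a set of edges, given a rank of the edges. -/
def keyOf (rk : E → ℕ) (T : Finset E) : ℕ := ∑ e ∈ T, 2 ^ rk e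

lemma keyOf_lt {rk : E → ℕ} (hrk : Function.Injective rk) {T T' : Finset E} {e : E} (he : e ∈ T)
    (he' : e ∉ T') (h : ∀ e' ∈ T', e' ∉ T → rk e' < rk e) : keyOf rk T' < keyOf rk T := by
  have h1 : keyOf rk T' = ∑ x ∈ T' ∩ T, 2 ^ rk x + ∑ x ∈ T' \ T, 2 ^ rk x :=
    (Finset.sum_inter_add_sum_sdiff T' T _).symm
  have h2 : keyOf rk T = ∑ x ∈ T ∩ T', 2 ^ rk x + ∑ x ∈ T \ T', 2 ^ rk x :=
    (Finset.sum_inter_add_sum_sdiff T T' _).symm
  rw [h1, h2, inter_comm T' T]
  apply Nat.add_lt_add_left
  have h3 : ∑ x ∈ T' \ T, 2 ^ rk x < 2 ^ rk e := by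
    have h4 : ∑ x ∈ T' \ T, 2 ^ rk x = ∑ k ∈ (T' \ T).image rk, 2 ^ k := by
      rw [Finset.sum_image (fun a _ b _ hab => hrk hab)]
    rw [h4]
    apply Nat.geomSum_lt le_rfl
    intro k hk
    obtain ⟨x, hx, rfl⟩ := mem_image.mp hk
    exact h x (mem_sdiff.mp hx).1 (mem_sdiff.mp hx).2
  have h5 : 2 ^ rk e ≤ ∑ x ∈ T \ T', 2 ^ rk x :=
    Finset.single_le_sum (f := fun x => 2 ^ rk x) (fun _ _ => Nat.zero_le _)
      (mem_sdiff.mpr ⟨he, he'⟩)
  omega

end Key

section Walks

set_option linter.unusedSectionVars false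

variable {G : Type} [AddCommGroup G] [Fintype G] [DecidableEq G] {D b : ℕ}

/-- The edges: a level, a vertex and a letter. -/
abbrev EdgeW (D : ℕ) (G : Type) (b : ℕ) : Type := Fin D × G × Fin b

/-- The vertex of a word at a level. -/
def vtx (μ : ℕ → Fin b → G) (w : Fin D → Fin b) (i : Fin D) : G := pos μ 0 0 w i

/-- The edges of a word. -/
def monoW (μ : ℕ → Fin b → G) (w : Fin D → Fin b) : Finset (EdgeW D G b) :=
  univ.image (fun i => (i, vtx μ w i, w i))

/-- The edges that a set must contain for the word to be the first walk of its row. -/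
def reqW (μ : ℕ → Fin b → G) (w : Fin D → Fin b) : Finset (EdgeW D G b) :=
  univ.filter (fun e => e.2.1 = vtx μ w e.1 ∧ e.2.2 ≤ w e.1)

lemma mem_monoW (μ : ℕ → Fin b → G) (w : Fin D → Fin b) (e : EdgeW D G b) :
    e ∈ monoW μ w ↔ e.2.1 = vtx μ w e.1 ∧ e.2.2 = w e.1 := by
  simp only [monoW, mem_image, mem_univ, true_and]
  constructor
  · rintro ⟨i, rfl⟩
    exact ⟨rfl, rfl⟩
  · rintro ⟨h1, h2⟩
    refine ⟨e.1, ?_⟩
    rw [← h1, ← h2]

lemma card_monoW (μ : ℕ → Fin b → G) (w : Fin D → Fin b) : (monoW μ w).card = D := by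
  rw [monoW, card_image_of_injective]
  · simp
  · intro i j h
    exact congrArg Prod.fst h

lemma monoW_subset_reqW (μ : ℕ → Fin b → G) (w : Fin D → Fin b) : monoW μ w ⊆ reqW μ w := by
  intro e he
  have h := (mem_monoW μ w e).mp he
  exact mem_filter.mpr ⟨mem_univ _, h.1, h.2.le⟩

/-- The rank of an edge: earlier levels come first, then smaller letters. -/
noncomputable def rkW (e : EdgeW D G b) : ℕ :=
  ((D - 1 - e.1.1) * Fintype.card G + (Fintype.equivFin G e.2.1).1) * b + (b - 1 - e.2.2.1)

lemma rk_arith {i i' D g b u u' a a' : ℕ} (hi : i < i') (hi' : i' < D) (ha' : a' < b) (hu' : u' < g) :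
    ((D - 1 - i') * g + u') * b + (b - 1 - a') < ((D - 1 - i) * g + u) * b + (b - 1 - a) := by
  have h1 : (D - 1 - i') + 1 ≤ D - 1 - i := by omega
  have h2 : ((D - 1 - i') * g + u') + 1 ≤ (D - 1 - i) * g + u := by
    have h3 : ((D - 1 - i') + 1) * g ≤ (D - 1 - i) * g := Nat.mul_le_mul_right _ h1
    rw [add_mul, one_mul] at h3
    omega
  have h4 := Nat.mul_le_mul_right b h2
  rw [add_mul, one_mul] at h4
  omega

lemma rkW_lt_level {i i' : Fin D} (h : i < i') (u u' : G) (a a' : Fin b) :
    rkW ((i', u', a') : EdgeW D G b) < rkW ((i, u, a) : EdgeW D G b) :=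
  rk_arith h i'.2 a'.2 (Fintype.equivFin G u').2

lemma rkW_lt_vertex (i : Fin D) {u u' : G}
    (h : (Fintype.equivFin G u).1 < (Fintype.equivFin G u').1) (a a' : Fin b) :
    rkW ((i, u, a) : EdgeW D G b) < rkW ((i, u', a') : EdgeW D G b) := by
  simp only [rkW]
  have ha := a.2
  have ha' := a'.2
  have h2 : ((D - 1 - i.1) * Fintype.card G + (Fintype.equivFin G u).1) + 1 ≤
      (D - 1 - i.1) * Fintype.card G + (Fintype.equivFin G u').1 := by omega
  have h4 := Nat.mul_le_mul_right b h2
  rw [add_mul, one_mul] at h4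
  omega

lemma rkW_lt_letter (i : Fin D) (u : G) {a a' : Fin b} (h : a < a') :
    rkW ((i, u, a') : EdgeW D G b) < rkW ((i, u, a) : EdgeW D G b) := by
  simp only [rkW]
  have ha : a.1 < a'.1 := h
  have ha' := a'.2
  omega

lemma rkW_injective : Function.Injective (rkW : EdgeW D G b → ℕ) := by
  rintro ⟨i, u, a⟩ ⟨i', u', a'⟩ h
  have h1 : i = i' := by
    rcases lt_trichotomy i i' with hlt | heq | hgt
    · have := rkW_lt_level hlt u u' a a'
      omega
    · exact heq
    · have := rkW_lt_level hgt u' u a' a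
      omega
  subst h1
  have h2 : u = u' := by
    rcases lt_trichotomy (Fintype.equivFin G u).1 (Fintype.equivFin G u').1 with hlt | heq | hgt
    · have := rkW_lt_vertex (b := b) i hlt a a'
      omega
    · exact (Fintype.equivFin G).injective (Fin.ext heq)
    · have := rkW_lt_vertex (b := b) i hgt a' a
      omega
  subst h2
  have h3 : a = a' := by
    rcases lt_trichotomy a a' with hlt | heq | hgt
    · have := rkW_lt_letter i u hlt
      omega
    · exact heq
    · have := rkW_lt_letter i u hgt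
      omega
  rw [h3]

/-- The first walk of a row has the largest key among the walks of the row. -/
theorem lead_of_req (μ : ℕ → Fin b → G) {T : Finset (EdgeW D G b)} {w v : Fin D → Fin b}
    (hw : reqW μ w ⊆ T) (hne : v ≠ w) (hdj : Disjoint (T \ monoW μ w) (monoW μ v)) :
    keyOf rkW ((T \ monoW μ w) ∪ monoW μ v) < keyOf rkW ((T \ monoW μ w) ∪ monoW μ w) := by
  classical
  have hTw : (T \ monoW μ w) ∪ monoW μ w = T :=
    sdiff_union_of_subset ((monoW_subset_reqW μ w).trans hw)
  rw [hTw]
  -- the first level where the words differ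
  have hs : (univ.filter (fun i => w i ≠ v i)).Nonempty := by
    obtain ⟨i, hi⟩ := Function.ne_iff.mp hne
    exact ⟨i, mem_filter.mpr ⟨mem_univ _, fun h => hi h.symm⟩⟩
  obtain ⟨i0, hi0, hmin⟩ := exists_min_image _ (fun i : Fin D => i) hs
  have hi0ne : w i0 ≠ v i0 := (mem_filter.mp hi0).2
  have hbefore : ∀ j, j < i0 → w j = v j := by
    intro j hj
    by_contra hcon
    exact absurd (hmin j (mem_filter.mpr ⟨mem_univ _, hcon⟩)) (not_le.mpr hj)
  have hvtx : vtx μ w i0 = vtx μ v i0 := pos_congr μ 0 0 i0 hbefore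
  -- the letter of `v` is larger
  have hlt : w i0 < v i0 := by
    by_contra hcon
    have hle : v i0 < w i0 := lt_of_le_of_ne (not_lt.mp hcon) hi0ne.symm
    have hmem : ((i0, vtx μ v i0, v i0) : EdgeW D G b) ∈ monoW μ v :=
      (mem_monoW μ v _).mpr ⟨rfl, rfl⟩
    have hreq : ((i0, vtx μ v i0, v i0) : EdgeW D G b) ∈ reqW μ w :=
      mem_filter.mpr ⟨mem_univ _, hvtx.symm, hle.le⟩
    have hnot : ((i0, vtx μ v i0, v i0) : EdgeW D G b) ∉ monoW μ w := by
      intro h
      exact hi0ne ((mem_monoW μ w _).mp h).2.symm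
    exact (Finset.disjoint_left.mp hdj) (mem_sdiff.mpr ⟨hw hreq, hnot⟩) hmem
  set estar : EdgeW D G b := (i0, vtx μ w i0, w i0) with hestar
  have h1 : estar ∈ T :=
    (monoW_subset_reqW μ w).trans hw ((mem_monoW μ w _).mpr ⟨rfl, rfl⟩)
  have h2 : estar ∉ (T \ monoW μ w) ∪ monoW μ v := by
    intro h
    rcases mem_union.mp h with h | h
    · exact (mem_sdiff.mp h).2 ((mem_monoW μ w _).mpr ⟨rfl, rfl⟩)
    · exact hi0ne ((mem_monoW μ v _).mp h).2
  apply keyOf_lt rkW_injective h1 h2
  intro e he heT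
  have hev : e ∈ monoW μ v := by
    rcases mem_union.mp he with h | h
    · exact absurd (mem_sdiff.mp h).1 heT
    · exact h
  obtain ⟨he1, he2⟩ := (mem_monoW μ v e).mp hev
  rcases e with ⟨i, u, a⟩
  simp only at he1 he2
  subst he1
  subst he2
  rcases lt_trichotomy i i0 with hlt' | heq | hgt
  · -- before the first difference the edge belongs to the word `w`
    exfalso
    apply heT
    apply (monoW_subset_reqW μ w).trans hw
    apply (mem_monoW μ w _).mpr
    refine ⟨?_, (hbefore i hlt').symm⟩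
    exact pos_congr μ 0 0 i (fun j hj => (hbefore j (hj.trans hlt')).symm)
  · subst heq
    rw [hestar, hvtx]
    exact rkW_lt_letter _ _ hlt
  · exact rkW_lt_level hgt _ _ _ _

/-- The number of walks for which a set is admissible. -/
def countM (μ : ℕ → Fin b → G) (T : Finset (EdgeW D G b)) : ℕ :=
  (univ.filter (fun w : Fin D → Fin b => reqW μ w ⊆ T)).card

open Classical in
/-- The sets that are admissible for at least one walk. -/
noncomputable def imSet (μ : ℕ → Fin b → G) : Finset (Finset (EdgeW D G b)) :=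
  univ.filter (fun T => ∃ w : Fin D → Fin b, reqW μ w ⊆ T)

/-- The number of admissible sets is at most the number of points where the sum of the monomials of the
walks differs from a given function of lower degree. -/
theorem card_imSet_le (μ : ℕ → Fin b → G) {Dg : ℕ} {Q : Finset (EdgeW D G b) → ZMod 2}
    (hQ : Q ∈ DegLE (EdgeW D G b) Dg) (hDg : Dg < D) :
    (imSet μ : Finset (Finset (EdgeW D G b))).card ≤
      (univ.filter (fun x => (∑ w : Fin D → Fin b, monoFn (monoW μ w) x) ≠ Q x)).card := by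
  classical
  have hchoose : ∀ T : {T // T ∈ (imSet μ : Finset (Finset (EdgeW D G b)))},
      ∃ w : Fin D → Fin b, reqW μ w ⊆ T.1 := fun T => (mem_filter.mp T.2).2
  choose pick hpick using hchoose
  have hunion : ∀ T, (T.1 \ monoW μ (pick T)) ∪ monoW μ (pick T) = T.1 := fun T =>
    sdiff_union_of_subset ((monoW_subset_reqW μ _).trans (hpick T))
  have h := card_le_card_ne_lead (monoW μ) (card_monoW μ)
    (fun T : {T // T ∈ (imSet μ : Finset (Finset (EdgeW D G b)))} => T.1 \ monoW μ (pick T)) pick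
    (keyOf rkW) (fun T => sdiff_disjoint)
    (fun T T' he => by
      have h1 : T.1 = T'.1 := by
        rw [← hunion T, ← hunion T']
        exact he
      exact Subtype.ext h1)
    (fun T v hdj hne => lead_of_req μ (hpick T) hne hdj) hQ hDg
  rw [Fintype.card_coe] at h
  exact h

end Walks

end Vale.Agent.Lib.P346
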