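import Vale.Agent.Lib.P346.Defs
import Vale.Agent.Lib.P346.Second

/-!
The assignment of the variables of `IMM_{n,n}` given by one long layered graph on the group `Fin n`:
the entry `(0, 0)` of the product is the sum over all walks of the monomials of the walks.
-/

namespace Vale.Agent.Lib.P346

open Finset MvPolynomial

variable {n D b : ℕ} [NeZero n] (μ : ℕ → Fin b → Fin n)

/-- The indicator of an edge, with a level given by a natural number (zero beyond the last level). -/
def cW (x : Finset (EdgeW D (Fin n) b)) (t : ℕ) (u : Fin n) (a : Fin b) : ZMod 2 :=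
  if h : t < D then (if ((⟨t, h⟩ : Fin D), u, a) ∈ x then 1 else 0) else 0

/-- The value given to the variable `(l, p, q)` of `IMM_{n,n}`: in the first `D` matrices the entry is
the sum over the letters leading from `p` to `q` of the indicators of the edges; in the other matrices
the entry is `1` when `q = 0` and `0` otherwise. -/
def assignW (x : Finset (EdgeW D (Fin n) b)) (v : ImmVar n) : ZMod 2 :=
  if v.1.1 < D then ∑ a, (if v.2.1 + μ v.1.1 a = v.2.2 then cW x v.1.1 v.2.1 a else 0)
  else if v.2.2 = 0 then 1 else 0

/-- The matrix of layer `t` at `x`, extended by the identity beyond the last layer. -/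
def layerW (x : Finset (EdgeW D (Fin n) b)) (t : ℕ) : Matrix (Fin n) (Fin n) (ZMod 2) :=
  if ht : t < n then Matrix.of fun p q => assignW μ x (⟨t, ht⟩, p, q) else 1

/-- The product of the first `t` layers. -/
def prodW (x : Finset (EdgeW D (Fin n) b)) (t : ℕ) : Matrix (Fin n) (Fin n) (ZMod 2) :=
  ((List.range t).map (layerW μ x)).prod

lemma prodW_succ (x : Finset (EdgeW D (Fin n) b)) (t : ℕ) (q : Fin n) :
    prodW μ x (t + 1) 0 q = ∑ p, prodW μ x t 0 p * layerW μ x t p q := by
  simp only [prodW]
  rw [List.range_succ, List.map_append, List.prod_append]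
  simp [Matrix.mul_apply]

lemma eval_immW (x : Finset (EdgeW D (Fin n) b)) :
    eval (assignW μ x) (imm (ZMod 2) n) = prodW μ x n 0 0 := by
  have h1 : prodW μ x n = (List.ofFn (fun t : Fin n => layerW μ x t.1)).prod := by
    simp only [prodW]
    congr 1
    apply List.ext_getElem
    · simp
    · intro i h2 h3
      simp
  rw [h1, imm]
  have h2 := map_list_prod (RingHom.mapMatrix (eval (assignW μ x))) (List.ofFn (immMatrix (ZMod 2) n))
  have h3 : (RingHom.mapMatrix (eval (assignW μ x))) (List.ofFn (immMatrix (ZMod 2) n)).prod 0 0 =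
      eval (assignW μ x) ((List.ofFn (immMatrix (ZMod 2) n)).prod 0 0) := by
    simp [RingHom.mapMatrix_apply]
  rw [← h3, h2, List.map_ofFn]
  have h4 : (⇑(RingHom.mapMatrix (eval (assignW μ x))) ∘ immMatrix (ZMod 2) n) =
      fun t : Fin n => layerW μ x t.1 := by
    funext t
    ext p q
    simp [immMatrix, layerW, t.2, RingHom.mapMatrix_apply]
  rw [h4]

/-- The sum over the walks from a vertex at level `t` up to the level `D`. -/
def backF (x : Finset (EdgeW D (Fin n) b)) (t : ℕ) (u : Fin n) : ZMod 2 :=
  pathSum μ (cW x) (D - t) t u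

/-- One layer applied to the sums over walks. -/
lemma layer_backF (x : Finset (EdgeW D (Fin n) b)) {t : ℕ} (ht : t < D) (htn : t < n) (p : Fin n) :
    ∑ q, layerW μ x t p q * backF μ x (t + 1) q = backF μ x t p := by
  have e : D - t = (D - (t + 1)) + 1 := by omega
  have h1 : backF μ x t p =
      ∑ a, cW x t p a * backF μ x (t + 1) (p + μ t a) := by
    simp only [backF]
    rw [e]
    rfl
  rw [h1]
  simp only [layerW, dif_pos htn, Matrix.of_apply, assignW, if_pos ht]
  simp only [Finset.sum_mul]
  rw [Finset.sum_comm]
  apply Finset.sum_congr rfl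
  intro a _
  rw [Finset.sum_eq_single (p + μ t a)]
  · simp
  · intro q _ hq
    rw [if_neg (fun h => hq h.symm), zero_mul]
  · intro hc
    exact absurd (mem_univ _) hc

/-- The invariant along the first `D` layers. -/
lemma sum_prodW_backF (x : Finset (EdgeW D (Fin n) b)) (hD : D < n) {t : ℕ} (ht : t ≤ D) :
    ∑ q, prodW μ x t 0 q * backF μ x t q = backF μ x 0 0 := by
  induction t with
  | zero =>
    simp only [prodW, List.range_zero, List.map_nil, List.prod_nil]
    rw [Finset.sum_eq_single 0]
    · simp
    · intro q _ hq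
      rw [Matrix.one_apply_ne (Ne.symm hq), zero_mul]
    · intro hc
      exact absurd (mem_univ _) hc
  | succ t ih =>
    have ht' : t < D := by omega
    rw [← ih ht'.le]
    simp only [prodW_succ, Finset.sum_mul]
    rw [Finset.sum_comm]
    apply Finset.sum_congr rfl
    intro p _
    rw [← layer_backF μ x ht' (by omega) p, Finset.mul_sum]
    apply Finset.sum_congr rfl
    intro q _
    ring

/-- Beyond the level `D` the row vector is concentrated on the vertex `0`. -/
lemma prodW_pad (x : Finset (EdgeW D (Fin n) b)) (hD : D < n) {j : ℕ} (hj : D + j + 1 ≤ n) (q : Fin n) :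
    prodW μ x (D + j + 1) 0 q = (if q = 0 then 1 else 0) * backF μ x 0 0 := by
  induction j generalizing q with
  | zero =>
    rw [add_zero, prodW_succ, ← sum_prodW_backF μ x hD le_rfl, Finset.mul_sum]
    apply Finset.sum_congr rfl
    intro p _
    have hlay : layerW μ x D p q = if q = 0 then 1 else 0 := by
      simp [layerW, hD, assignW]
    have hb : backF μ x D p = 1 := by
      simp [backF, pathSum]
    rw [hlay, hb]
    ring
  | succ j ih =>
    have ht : D + (j + 1) < n := by omega
    have e : D + (j + 1) + 1 = (D + j + 1) + 1 := by ring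
    rw [e, prodW_succ]
    have hlay : ∀ p, layerW μ x (D + j + 1) p q = if q = 0 then 1 else 0 := by
      intro p
      have h1 : D + j + 1 < n := by omega
      have h2 : ¬ (D + j + 1 < D) := by omega
      simp only [layerW, dif_pos h1, Matrix.of_apply, assignW, if_neg h2]
    simp only [hlay]
    rw [Finset.sum_eq_single 0]
    · rw [ih (by omega)]
      simp
    · intro p _ hp
      rw [ih (by omega) p]
      simp [hp]
    · intro hc
      exact absurd (mem_univ _) hc

/-- The product of the indicators along a walk is the monomial function of the walk. -/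
lemma prod_cW_eq (x : Finset (EdgeW D (Fin n) b)) (w : Fin D → Fin b) :
    ∏ i : Fin D, cW x (0 + i.1) (pos μ 0 0 w i) (w i) = monoFn (monoW μ w) x := by
  have h1 : ∀ i : Fin D, cW x (0 + i.1) (pos μ 0 0 w i) (w i) =
      if (i, vtx μ w i, w i) ∈ x then 1 else 0 := by
    intro i
    simp only [cW, zero_add, i.2, dif_pos, Fin.eta, vtx]
    congr
  simp only [h1]
  rw [Finset.prod_ite_zero]
  simp only [monoFn, monoW, image_subset_iff, mem_univ, true_imp_iff, prod_const_one]

/-- The value of `IMM_{n,n}` at the assignment is the sum over the walks of the monomials. -/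
theorem eval_immW_eq (x : Finset (EdgeW D (Fin n) b)) (hD : D < n) :
    eval (assignW μ x) (imm (ZMod 2) n) = ∑ w : Fin D → Fin b, monoFn (monoW μ w) x := by
  rw [eval_immW]
  have h1 := prodW_pad μ x hD (j := n - (D + 1)) (by omega) 0
  have h2 : D + (n - (D + 1)) + 1 = n := by omega
  rw [h2] at h1
  rw [h1]
  simp only [if_true, one_mul, backF]
  rw [pathSum_eq]
  simp only [Nat.sub_zero]
  apply Finset.sum_congr rfl
  intro w _
  exact prod_cW_eq μ x w

/-- The coordinates of the assignment have degree at most one. -/
theorem assignW_mem_DegLE (v : ImmVar n) :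
    (fun x => assignW μ x v) ∈ DegLE (EdgeW D (Fin n) b) 1 := by
  classical
  by_cases hv : v.1.1 < D
  · have h1 : (fun x : Finset (EdgeW D (Fin n) b) => assignW μ x v) =
        ∑ a : Fin b, (if v.2.1 + μ v.1.1 a = v.2.2 then (1 : ZMod 2) else 0) •
          (fun x : Finset (EdgeW D (Fin n) b) =>
            if (((⟨v.1.1, hv⟩ : Fin D), v.2.1, a) : EdgeW D (Fin n) b) ∈ x then (1 : ZMod 2) else 0) := by
      funext x
      simp only [assignW, if_pos hv, cW, dif_pos hv, Finset.sum_apply, Pi.smul_apply, smul_eq_mul]
      apply Finset.sum_congr rfl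
      intro a _
      split_ifs <;> simp
    rw [h1]
    exact sum_mem_DegLE _ _ (fun a _ => smul_mem_DegLE _ (mem_fn_mem_DegLE _))
  · have h1 : (fun x : Finset (EdgeW D (Fin n) b) => assignW μ x v) =
        (if v.2.2 = 0 then (1 : ZMod 2) else 0) • (1 : Finset (EdgeW D (Fin n) b) → ZMod 2) := by
      funext x
      simp only [assignW, if_neg hv, Pi.smul_apply, Pi.one_apply, smul_eq_mul, mul_one]
    rw [h1]
    exact smul_mem_DegLE _ (one_mem_DegLE 1)

end Vale.Agent.Lib.P346
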