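import Vale.Agent.Lib.P346.Main

/-!
The choice of the parameters.
-/

namespace Vale.Agent.Lib.P346

lemma param_ineq (j : ℕ) (hj : 14 ≤ j) : 16 * (2 * j + 3) ^ 2 ≤ 2 ^ j := by
  induction j, hj using Nat.le_induction with
  | base => norm_num
  | succ j hj ih =>
    have h1 : (2 * (j + 1) + 3) ^ 2 ≤ 2 * (2 * j + 3) ^ 2 := by nlinarith
    rw [pow_succ 2 j]
    omega

/-- The exponent vanishes for small `n`. -/
lemma sqrt_lt_of_small {n : ℕ} (hL : Nat.log 2 n < 30) (hL0 : Nat.log 2 n ≠ 0) :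
    Nat.sqrt n < 2048 * Nat.log 2 n := by
  rw [Nat.sqrt_lt']
  have h1 := Nat.lt_pow_succ_log_self (b := 2) (by norm_num) n
  set L := Nat.log 2 n with hLdef
  clear_value L
  interval_cases L <;> omega

lemma tau_sq_lt {a m B τ : ℕ} (hmpos : 0 < m) (hxY : m < 32 * (a * a * B)) (hτ1 : τ * (6 * a) ≤ m) :
    τ * τ < B * m := by
  by_contra hcon
  push Not at hcon
  have h1 : (τ * (6 * a)) * (τ * (6 * a)) ≤ m * m := Nat.mul_le_mul hτ1 hτ1
  have h2 : 36 * (a * a) * (B * m) ≤ m * m := by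
    calc 36 * (a * a) * (B * m) ≤ 36 * (a * a) * (τ * τ) := Nat.mul_le_mul_left _ hcon
      _ = (τ * (6 * a)) * (τ * (6 * a)) := by ring
      _ ≤ m * m := h1
  have h3 : m * m < 32 * (a * a * B) * m := Nat.mul_lt_mul_of_pos_right hxY hmpos
  have e1 : 36 * (a * a) * (B * m) = 36 * (a * a * B * m) := by ring
  have e2 : 32 * (a * a * B) * m = 32 * (a * a * B * m) := by ring
  rw [e1] at h2
  rw [e2] at h3
  omega

lemma exp_le {E L a m B : ℕ} (h1 : E * (2048 * L) ≤ 4 * m) (h2 : a ≤ 2 * L)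
    (hB1 : B * (16 * a ^ 2) ≤ m) : (E + B * a) * (6 * a) ≤ m := by
  have h3 : a * E ≤ 2 * L * E := Nat.mul_le_mul_right _ h2
  have e1 : E * (2048 * L) = 1024 * (2 * L * E) := by ring
  have e2 : B * (16 * a ^ 2) = 16 * (a * a * B) := by ring
  have e3 : (E + B * a) * (6 * a) = 6 * (a * E) + 6 * (a * a * B) := by ring
  rw [e1] at h1
  rw [e2] at hB1
  rw [e3]
  omega

/-- The lower bound on the size of every circuit computing `IMM_{n,n}` over `ZMod 2`. -/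
theorem final_bound (n : ℕ) [NeZero n] (C : Circuit (ZMod 2) (ImmVar n))
    (hC : C.output = imm (ZMod 2) n) :
    2 ^ (Nat.sqrt n / (2048 * Nat.log 2 n)) ≤ C.size := by
  have hn : n ≠ 0 := NeZero.ne n
  have hsize : 1 ≤ C.size := by
    simp only [Circuit.size]
    omega
  by_cases hL0 : Nat.log 2 n = 0
  · rw [hL0]
    simpa using hsize
  by_cases hL : Nat.log 2 n < 30
  · rw [Nat.div_eq_of_lt (sqrt_lt_of_small hL hL0), pow_zero]
    exact hsize
  have h2L : 2 ^ Nat.log 2 n ≤ n := Nat.pow_log_le_self 2 hn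
  have hnL : n < 2 ^ (Nat.log 2 n + 1) := Nat.lt_pow_succ_log_self (by norm_num) n
  set E := Nat.sqrt n / (2048 * Nat.log 2 n) with hE
  have hEle : E * (2048 * Nat.log 2 n) ≤ Nat.sqrt n := Nat.div_mul_le_self _ _
  clear_value E
  set L := Nat.log 2 n with hLdef
  clear_value L
  obtain ⟨j, hj⟩ : ∃ j, L / 2 = j + 1 := ⟨L / 2 - 1, by omega⟩
  have hj14 : 14 ≤ j := by omega
  have hL1 : 2 * j + 2 ≤ L := by omega
  have hL2 : L ≤ 2 * j + 3 := by omega
  have hma0 : 16 * (2 * j + 3) ^ 2 ≤ 2 ^ j := param_ineq j hj14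
  have h4m0 : 2 ^ (2 * j + 2) = 4 * (2 ^ j * 2 ^ j) := by
    rw [show 2 * j + 2 = j + j + 2 by ring, pow_add, pow_add]
    ring
  have h4m1 : 2 ^ (2 * j + 4) = 16 * (2 ^ j * 2 ^ j) := by
    rw [show 2 * j + 4 = j + j + 4 by ring, pow_add, pow_add]
    ring
  have hc2 : 2 ^ (2 * j + 2) ≤ n := (Nat.pow_le_pow_right (by norm_num) hL1).trans h2L
  have hc3 : n < 2 ^ (2 * j + 4) := hnL.trans_le (Nat.pow_le_pow_right (by norm_num) (by omega))
  generalize hm : 2 ^ j = m at hma0 h4m0 h4m1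
  obtain ⟨a, ha⟩ : ∃ a, a = 2 * j + 3 := ⟨_, rfl⟩
  rw [← ha] at hma0
  have hapos : 0 < a := by omega
  have hmpos : 0 < m := by rw [← hm]; positivity
  have hnm : 4 * (m * m) ≤ n := by rw [← h4m0]; exact hc2
  have hsq : Nat.sqrt n < 4 * m := by
    rw [Nat.sqrt_lt']
    rw [h4m1] at hc3
    have e : (4 * m) ^ 2 = 16 * (m * m) := by ring
    rw [e]
    exact hc3
  obtain ⟨B, hB⟩ : ∃ B, B = m / (16 * a ^ 2) := ⟨_, rfl⟩
  obtain ⟨τ, hτ⟩ : ∃ τ, τ = m / (6 * a) := ⟨_, rfl⟩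
  have hB0 : 0 < 16 * a ^ 2 := by positivity
  have hB1 : B * (16 * a ^ 2) ≤ m := by rw [hB]; exact Nat.div_mul_le_self _ _
  have hB2 : m < (16 * a ^ 2) * (B + 1) := by rw [hB]; exact Nat.lt_mul_div_succ m hB0
  have hBpos : 1 ≤ B := by rw [hB]; exact Nat.div_pos hma0 hB0
  have hτ1 : τ * (6 * a) ≤ m := by rw [hτ]; exact Nat.div_mul_le_self _ _
  have hxY : m < 32 * (a * a * B) := by
    have e1 : (16 * a ^ 2) * (B + 1) = 16 * (a * a * B) + 16 * (a * a) := by ring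
    have e2 : a * a ≤ a * a * B := Nat.le_mul_of_pos_right _ hBpos
    omega
  have ham : a ≤ m := by
    have e : a ≤ a ^ 2 := by nlinarith
    omega
  have hτsq : τ * τ < B * m := tau_sq_lt hmpos hxY hτ1
  have hBm : B ≤ m := by
    have e : B ≤ B * (16 * a ^ 2) := Nat.le_mul_of_pos_right _ hB0
    omega
  have hlen : B * (m + (2 * j + 2)) ≤ n := by
    have h1 : m + (2 * j + 2) ≤ 2 * m := by omega
    calc B * (m + (2 * j + 2)) ≤ m * (2 * m) := Nat.mul_le_mul hBm h1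
      _ = 2 * (m * m) := by ring
      _ ≤ 4 * (m * m) := by omega
      _ ≤ n := hnm
  have hτ2 : τ * τ < B * (m + (2 * j + 2)) := by
    have h1 : B * m ≤ B * (m + (2 * j + 2)) := Nat.mul_le_mul_left _ (by omega)
    omega
  have hpar : 2 * m * (m + (2 * j + 2) + 1) ≤ 2 ^ (2 * j + 2) := by
    rw [h4m0]
    have h1 : m + (2 * j + 2) + 1 ≤ 2 * m := by omega
    calc 2 * m * (m + (2 * j + 2) + 1) ≤ 2 * m * (2 * m) := Nat.mul_le_mul_left _ h1
      _ = 4 * (m * m) := by ring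
  have hmain := main_bound (n := n) (h := 2 * j + 2) (m := m) (B := B) (τ := τ) hc2 hlen hτ2 hpar C hC
  have hEτ : E + B * a ≤ τ := by
    rw [hτ, Nat.le_div_iff_mul_le (by positivity)]
    exact exp_le (L := L) (hEle.trans hsq.le) (by omega) hB1
  have h5 : 2 ^ E * 2 ^ (B * a) ≤ C.size * 2 ^ (B * a) := by
    calc 2 ^ E * 2 ^ (B * a) = 2 ^ (E + B * a) := (pow_add _ _ _).symm
      _ ≤ 2 ^ τ := Nat.pow_le_pow_right (by norm_num) hEτ
      _ ≤ C.size * 2 ^ (B * (2 * j + 2 + 1)) := hmain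
      _ = C.size * 2 ^ (B * a) := by rw [ha]
  exact Nat.le_of_mul_le_mul_right h5 (by positivity)

end Vale.Agent.Lib.P346
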