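import Vale.Agent.Lib.P346.Second

/-!
The first and second moments of the number of walks admissible for a set of edges.
-/

namespace Vale.Agent.Lib.P346

open Finset

set_option linter.unusedSectionVars false

variable {G : Type} [AddCommGroup G] [Fintype G] [DecidableEq G] {D b : ℕ}

/-- The edges of one level and one vertex with letter at most `a`. -/
def levelSet (i : Fin D) (u : G) (a : Fin b) : Finset (EdgeW D G b) :=
  univ.filter (fun e => e.1 = i ∧ e.2.1 = u ∧ e.2.2 ≤ a)

lemma card_levelSet (i : Fin D) (u : G) (a : Fin b) : (levelSet i u a).card = a.1 + 1 := by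
  have h : levelSet i u a = (Iic a).image (fun a' => ((i, u, a') : EdgeW D G b)) := by
    ext ⟨i', u', a'⟩
    simp only [levelSet, mem_filter, mem_univ, true_and, mem_image, mem_Iic, Prod.mk.injEq]
    constructor
    · rintro ⟨rfl, rfl, h⟩
      exact ⟨a', h, rfl, rfl, rfl⟩
    · rintro ⟨x, hx, rfl, rfl, rfl⟩
      exact ⟨rfl, rfl, hx⟩
  rw [h, card_image_of_injective, Fin.card_Iic]
  intro x y hxy
  simpa using hxy

lemma levelSet_union_same (i : Fin D) (u : G) (a a' : Fin b) :
    levelSet i u a ∪ levelSet i u a' = levelSet i u (max a a') := by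
  ext e
  simp only [levelSet, mem_union, mem_filter, mem_univ, true_and, le_max_iff]
  tauto

lemma levelSet_disjoint (i : Fin D) {u u' : G} (h : u ≠ u') (a a' : Fin b) :
    Disjoint (levelSet i u a) (levelSet i u' a') := by
  rw [Finset.disjoint_left]
  intro e he he'
  have h1 := (mem_filter.mp he).2.2.1
  have h2 := (mem_filter.mp he').2.2.1
  exact h (h1.symm.trans h2)

lemma reqW_filter (μ : ℕ → Fin b → G) (w : Fin D → Fin b) (i : Fin D) :
    (reqW μ w).filter (fun e => e.1 = i) = levelSet i (vtx μ w i) (w i) := by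
  ext e
  simp only [reqW, levelSet, mem_filter, mem_univ, true_and]
  constructor
  · rintro ⟨⟨h1, h2⟩, rfl⟩
    exact ⟨rfl, h1, h2⟩
  · rintro ⟨rfl, h1, h2⟩
    exact ⟨⟨h1, h2⟩, rfl⟩

/-- The number of sets containing a given set, in rational numbers. -/
lemma card_superset (R : Finset (EdgeW D G b)) :
    ((univ.filter (fun T => R ⊆ T)).card : ℚ) =
      2 ^ Fintype.card (EdgeW D G b) * (1 / 2) ^ R.card := by
  have h1 : univ.filter (fun T => R ⊆ T) = Icc R univ := by
    ext T
    simp [mem_Icc]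
  have hle : R.card ≤ Fintype.card (EdgeW D G b) := card_le_univ R
  rw [h1, card_Icc_finset (subset_univ R), card_univ]
  push_cast
  rw [pow_sub₀ (2 : ℚ) (by norm_num) hle]
  simp

/-- A power of one half splits over the levels. -/
lemma half_pow_card (R : Finset (EdgeW D G b)) :
    ((1 : ℚ) / 2) ^ R.card = ∏ i : Fin D, (1 / 2) ^ (R.filter (fun e => e.1 = i)).card := by
  rw [Finset.prod_pow_eq_pow_sum]
  congr 1
  exact card_eq_sum_card_fiberwise (fun e _ => mem_univ _)

/-- The weight of the first moment at one level. -/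
lemma half_pow_reqW (μ : ℕ → Fin b → G) (w : Fin D → Fin b) :
    ((1 : ℚ) / 2) ^ (reqW μ w).card = ∏ i : Fin D, (1 / 2) ^ ((w i).1 + 1) := by
  rw [half_pow_card]
  apply Finset.prod_congr rfl
  intro i _
  rw [reqW_filter, card_levelSet]

/-- The weight of the second moment at one level. -/
lemma half_pow_reqW_union (μ : ℕ → Fin b → G) (w v : Fin D → Fin b) :
    ((1 : ℚ) / 2) ^ (reqW μ w ∪ reqW μ v).card =
      ∏ i : Fin D, wt (vtx μ w i - vtx μ v i) (w i) (v i) := by
  rw [half_pow_card]
  apply Finset.prod_congr rfl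
  intro i _
  rw [Finset.filter_union, reqW_filter, reqW_filter]
  by_cases h : vtx μ w i = vtx μ v i
  · rw [h, levelSet_union_same, card_levelSet]
    simp [wt, Fin.coe_max]
  · rw [card_union_of_disjoint (levelSet_disjoint i h _ _), card_levelSet, card_levelSet]
    simp [wt, sub_eq_zero, h]

/-- The recursion for pairs of walks gives the sum over pairs of words. -/
lemma pairA_eq (μ : ℕ → Fin b → G) (L t : ℕ) (u u' : G) :
    pairA μ L t (u - u') = ∑ w : Fin L → Fin b, ∑ v : Fin L → Fin b,
      ∏ i, wt (pos μ t u w i - pos μ t u' v i) (w i) (v i) := by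
  induction L generalizing t u u' with
  | zero => simp [pairA]
  | succ L ih =>
    rw [sum_fin_succ]
    simp_rw [sum_fin_succ (fun v : Fin (L + 1) → Fin b => ∏ i, _)]
    simp only [pairA]
    apply Finset.sum_congr rfl
    intro a _
    rw [Finset.sum_comm]
    apply Finset.sum_congr rfl
    intro a' _
    have e : u - u' + μ t a - μ t a' = (u + μ t a) - (u' + μ t a') := by abel
    rw [e, ih, Finset.mul_sum]
    apply Finset.sum_congr rfl
    intro w _
    rw [Finset.mul_sum]
    apply Finset.sum_congr rfl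
    intro v _
    rw [Fin.prod_univ_succ]
    simp only [pos_cons_zero, Fin.cons_zero, Fin.cons_succ, pos_cons_succ]

/-- The first moment. -/
theorem sum_countM (μ : ℕ → Fin b → G) :
    ∑ T : Finset (EdgeW D G b), (countM μ T : ℚ) =
      2 ^ Fintype.card (EdgeW D G b) * (1 - (1 / 2) ^ b) ^ D := by
  have h1 : ∀ T : Finset (EdgeW D G b), (countM μ T : ℚ) =
      ∑ w : Fin D → Fin b, if reqW μ w ⊆ T then 1 else 0 := by
    intro T
    simp [countM]
  simp_rw [h1]
  rw [Finset.sum_comm]
  have h2 : ∀ w : Fin D → Fin b, ∑ T : Finset (EdgeW D G b), (if reqW μ w ⊆ T then (1 : ℚ) else 0) =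
      2 ^ Fintype.card (EdgeW D G b) * ∏ i : Fin D, (1 / 2) ^ ((w i).1 + 1) := by
    intro w
    rw [← half_pow_reqW μ w, ← card_superset, card_filter]
    push_cast
    rfl
  simp_rw [h2]
  rw [← Finset.mul_sum, ← mass_one, Fintype.sum_pow]

/-- The second moment. -/
theorem sum_countM_sq (μ : ℕ → Fin b → G) :
    ∑ T : Finset (EdgeW D G b), (countM μ T : ℚ) ^ 2 =
      2 ^ Fintype.card (EdgeW D G b) * pairA μ D 0 0 := by
  have h1 : ∀ T : Finset (EdgeW D G b), (countM μ T : ℚ) ^ 2 =
      ∑ w : Fin D → Fin b, ∑ v : Fin D → Fin b, if reqW μ w ∪ reqW μ v ⊆ T then 1 else 0 := by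
    intro T
    have h2 : (countM μ T : ℚ) = ∑ w : Fin D → Fin b, if reqW μ w ⊆ T then 1 else 0 := by
      simp [countM]
    rw [h2, sq, Finset.sum_mul_sum]
    apply Finset.sum_congr rfl
    intro w _
    apply Finset.sum_congr rfl
    intro v _
    by_cases hw : reqW μ w ⊆ T <;> by_cases hv : reqW μ v ⊆ T <;> simp [hw, hv, union_subset_iff]
  simp_rw [h1]
  rw [Finset.sum_comm]
  have h3 : ∀ w : Fin D → Fin b, ∑ T : Finset (EdgeW D G b), ∑ v : Fin D → Fin b,
      (if reqW μ w ∪ reqW μ v ⊆ T then (1 : ℚ) else 0) =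
      ∑ v : Fin D → Fin b, 2 ^ Fintype.card (EdgeW D G b) *
        ∏ i : Fin D, wt (vtx μ w i - vtx μ v i) (w i) (v i) := by
    intro w
    rw [Finset.sum_comm]
    apply Finset.sum_congr rfl
    intro v _
    rw [← half_pow_reqW_union μ w v, ← card_superset, card_filter]
    push_cast
    rfl
  simp_rw [h3]
  simp_rw [← Finset.mul_sum]
  congr 1
  have h4 := pairA_eq (b := b) μ D 0 (0 : G) 0
  rw [sub_self] at h4
  rw [h4]
  rfl

/-- The Cauchy–Schwarz inequality for the number of admissible sets. -/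
theorem card_imSet_mul_ge (μ : ℕ → Fin b → G) :
    (2 : ℚ) ^ Fintype.card (EdgeW D G b) * (1 - (1 / 2) ^ b) ^ (2 * D) ≤
      ((imSet μ : Finset (Finset (EdgeW D G b))).card : ℚ) * pairA μ D 0 0 := by
  classical
  set N := Fintype.card (EdgeW D G b) with hN
  have hzero : ∀ T : Finset (EdgeW D G b), T ∉ (imSet μ : Finset (Finset (EdgeW D G b))) →
      (countM μ T : ℚ) = 0 := by
    intro T hT
    have h1 : countM μ T = 0 := by
      rw [countM, card_eq_zero, filter_eq_empty_iff]
      intro w _ hw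
      exact hT (mem_filter.mpr ⟨mem_univ _, w, hw⟩)
    rw [h1]
    simp
  have h1 : ∑ T ∈ (imSet μ : Finset (Finset (EdgeW D G b))), (countM μ T : ℚ) =
      ∑ T, (countM μ T : ℚ) :=
    Finset.sum_subset (subset_univ _) (fun T _ hT => hzero T hT)
  have h2 : ∑ T ∈ (imSet μ : Finset (Finset (EdgeW D G b))), (countM μ T : ℚ) ^ 2 =
      ∑ T, (countM μ T : ℚ) ^ 2 :=
    Finset.sum_subset (subset_univ _) (fun T _ hT => by rw [hzero T hT]; simp)
  have h3 := sq_sum_le_card_mul_sum_sq (s := (imSet μ : Finset (Finset (EdgeW D G b))))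
    (f := fun T => (countM μ T : ℚ))
  rw [h1, h2, sum_countM, sum_countM_sq] at h3
  have h4 : (0 : ℚ) < 2 ^ N := by positivity
  have h5 : ((2 : ℚ) ^ N * (1 - (1 / 2) ^ b) ^ D) ^ 2 =
      2 ^ N * (2 ^ N * (1 - (1 / 2) ^ b) ^ (2 * D)) := by
    rw [mul_pow, ← pow_mul]
    ring
  rw [h5] at h3
  have h6 : ((imSet μ : Finset (Finset (EdgeW D G b))).card : ℚ) * (2 ^ N * pairA μ D 0 0) =
      2 ^ N * (((imSet μ : Finset (Finset (EdgeW D G b))).card : ℚ) * pairA μ D 0 0) := by ring
  rw [h6] at h3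
  exact le_of_mul_le_mul_left h3 h4

end Vale.Agent.Lib.P346
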