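import Vale.Agent.Lib.P346.Razborov

/-!
The multiplication rank bound with leading monomials: a sum of monomials of degree `d` is far from all
functions of degree below `d`, as soon as there are many subsets with pairwise distinct leading terms.
-/

namespace Vale.Agent.Lib.P346

open Finset

variable {E : Type} [Fintype E] [DecidableEq E]

/-- Let `F` be the sum of the monomials `mono p`, all of degree `d`. Let `(S i, pp i)` be pairs such that
the sets `T i = S i ∪ mono (pp i)` are distinct, where `mono (pp i)` is disjoint from `S i`, and for every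
other monomial `mono p` disjoint from `S i` the set `S i ∪ mono p` has a smaller key than `T i`.
Then `F` differs from every function of degree below `d` on at least as many points as there are pairs. -/
theorem card_le_card_ne_lead {P I : Type} [Fintype P] [Fintype I] [DecidableEq P] [DecidableEq I]
    (mono : P → Finset E) {d : ℕ} (hcard : ∀ p, (mono p).card = d)
    (S : I → Finset E) (pp : I → P) (key : Finset E → ℕ)
    (hdisj : ∀ i, Disjoint (S i) (mono (pp i)))
    (hInj : ∀ i j, S i ∪ mono (pp i) = S j ∪ mono (pp j) → i = j)
    (hLead : ∀ i p, Disjoint (S i) (mono p) → p ≠ pp i →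
      key (S i ∪ mono p) < key (S i ∪ mono (pp i)))
    {D : ℕ} {G : Finset E → ZMod 2} (hG : G ∈ DegLE E D) (hD : D < d) :
    Fintype.card I ≤ (univ.filter (fun x => (∑ p, monoFn (mono p) x) ≠ G x)).card := by
  classical
  set F : Finset E → ZMod 2 := fun x => ∑ p, monoFn (mono p) x with hF
  set Bad : Finset (Finset E) := univ.filter (fun x => (∑ p, monoFn (mono p) x) ≠ G x) with hBad
  set T : I → Finset E := fun i => S i ∪ mono (pp i) with hT
  have hmemBad : ∀ x, (if x ∈ Bad then (1 : ZMod 2) else 0) = F x + G x := by
    intro x
    by_cases hx : x ∈ Bad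
    · rw [if_pos hx]
      have hne : F x ≠ G x := (mem_filter.mp hx).2
      rcases zmod2_cases (F x) with h1 | h1 <;> rcases zmod2_cases (G x) with h2 | h2 <;>
        simp_all
    · rw [if_neg hx]
      have he : F x = G x := by
        by_contra hne
        exact hx (mem_filter.mpr ⟨mem_univ _, hne⟩)
      rw [he, zmod2_add_self]
  have hTcard : ∀ j, (T j).card = (S j).card + d := by
    intro j
    rw [hT, card_union_of_disjoint (hdisj j), hcard]
  -- the terms of the interval sum
  have hterm : ∀ i j p, S i ⊆ T j → (S j).card ≥ (S i).card →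
      (∑ x ∈ Icc (S i) (T j), monoFn (mono p) x) ≠ 0 →
      S i ∪ mono p = T j ∧ Disjoint (S i) (mono p) ∧ (S j).card = (S i).card := by
    intro i j p hsub hij hp
    rw [sum_Icc_monoFn _ _ _ hsub] at hp
    split_ifs at hp with hpT
    · have hemp : (T j \ (S i ∪ mono p)).card = 0 := by
        by_contra hne
        exact hp (two_pow_eq_zero (Nat.pos_of_ne_zero hne))
      have hsub2 : T j ⊆ S i ∪ mono p := by
        rw [card_eq_zero, sdiff_eq_empty_iff_subset] at hemp
        exact hemp
      have heq : S i ∪ mono p = T j := Subset.antisymm (union_subset hsub hpT) hsub2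
      have h1 := card_union_le (S i) (mono p)
      rw [heq, hTcard j, hcard p] at h1
      have hcu : (S i ∪ mono p).card = (S i).card + (mono p).card := by
        rw [heq, hTcard j, hcard p]
        omega
      have hdj : Disjoint (S i) (mono p) := by
        rw [← card_union_eq_card_add_card]
        exact hcu
      exact ⟨heq, hdj, by omega⟩
    · exact absurd rfl hp
  -- the main computation over an interval of subsets
  have hM0 : ∀ i j, (S j).card ≥ (S i).card →
      ∑ x ∈ Icc (S i) (T j), (F x + G x) = ∑ p, ∑ x ∈ Icc (S i) (T j), monoFn (mono p) x := by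
    intro i j hij
    by_cases hsub : S i ⊆ T j
    · have hdim : D < (T j \ S i).card := by
        rw [card_sdiff_of_subset hsub, hTcard j]
        omega
      have hG0 : ∑ x ∈ Icc (S i) (T j), G x = 0 := sum_Icc_eq_zero_of_mem_DegLE hG hsub hdim
      rw [Finset.sum_add_distrib, hG0, add_zero]
      simp only [hF]
      rw [Finset.sum_comm]
    · rw [Icc_eq_empty (fun h => hsub h)]
      simp
  have hself : ∀ j, ∑ x ∈ Icc (S j) (T j), (F x + G x) = 1 := by
    intro j
    rw [hM0 j j le_rfl, Finset.sum_eq_single (pp j)]
    · rw [sum_Icc_monoFn _ _ _ subset_union_left, if_pos subset_union_right]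
      have : T j \ (S j ∪ mono (pp j)) = ∅ := by
        simp [hT]
      rw [this]; simp
    · intro p _ hne
      by_contra hcon
      obtain ⟨h1, h2, _⟩ := hterm j j p subset_union_left le_rfl hcon
      have h3 := hLead j p h2 hne
      rw [h1] at h3
      exact lt_irrefl _ h3
    · intro h; exact absurd (mem_univ _) h
  have hother : ∀ i j, i ≠ j → (S j).card ≥ (S i).card →
      ((S j).card = (S i).card → key (T i) ≤ key (T j)) →
      ∑ x ∈ Icc (S i) (T j), (F x + G x) = 0 := by
    intro i j hne hij hkey
    by_cases hsub : S i ⊆ T j
    · rw [hM0 i j hij]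
      apply Finset.sum_eq_zero
      intro p _
      by_contra hcon
      obtain ⟨h1, h2, h3⟩ := hterm i j p hsub hij hcon
      by_cases hp : p = pp i
      · subst hp
        exact hne (hInj i j h1)
      · have h4 := hLead i p h2 hp
        rw [h1] at h4
        have h5 := hkey h3
        exact absurd h4 (not_lt.mpr h5)
    · rw [Icc_eq_empty (fun h => hsub h), sum_empty]
  -- the linear map to the functions on the set of bad points
  let Φ : (I → ZMod 2) →ₗ[ZMod 2] ({x // x ∈ Bad} → ZMod 2) :=
    { toFun := fun c x => ∑ i, c i * monoFn (S i) x.1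
      map_add' := by
        intro a b; funext x
        simp [add_mul, Finset.sum_add_distrib]
      map_smul' := by
        intro r a; funext x
        simp [Finset.mul_sum, mul_assoc] }
  have hΦ : Function.Injective Φ := by
    rw [← LinearMap.ker_eq_bot, LinearMap.ker_eq_bot']
    intro c hc
    by_contra hcne
    have hsupp : (univ.filter (fun i => c i ≠ 0)).Nonempty := by
      obtain ⟨i, hi⟩ := Function.ne_iff.mp hcne
      exact ⟨i, mem_filter.mpr ⟨mem_univ _, hi⟩⟩
    -- an element of maximal size and then of maximal key
    obtain ⟨j0, hj0, hj0max⟩ := exists_max_image _ (fun i => (S i).card) hsupp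
    set Sup2 := (univ.filter (fun i => c i ≠ 0)).filter (fun i => (S i).card = (S j0).card) with hSup2
    have hsupp2 : Sup2.Nonempty := ⟨j0, mem_filter.mpr ⟨hj0, rfl⟩⟩
    obtain ⟨j, hj, hjmax⟩ := exists_max_image Sup2 (fun i => key (T i)) hsupp2
    have hj1 := mem_filter.mp hj
    have hcj : c j ≠ 0 := (mem_filter.mp hj1.1).2
    -- pairing with the interval below `T j`
    have hzero : ∑ x ∈ Bad, (if x ⊆ T j then ∑ i, c i * monoFn (S i) x else 0) = 0 := by
      apply Finset.sum_eq_zero
      intro x hx
      have h1 := congrFun hc ⟨x, hx⟩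
      have h2 : ∑ i, c i * monoFn (S i) x = 0 := h1
      rw [h2]; simp
    have hswap : ∑ x ∈ Bad, (if x ⊆ T j then ∑ i, c i * monoFn (S i) x else 0) =
        ∑ i, c i * ∑ x ∈ Icc (S i) (T j), (F x + G x) := by
      have h1 : ∀ i, c i * ∑ x ∈ Icc (S i) (T j), (F x + G x) =
          ∑ x ∈ Bad, (if x ⊆ T j then c i * monoFn (S i) x else 0) := by
        intro i
        rw [Finset.mul_sum]
        have h2 : ∀ x ∈ Icc (S i) (T j), c i * (F x + G x) =
            if x ∈ Bad then c i else 0 := by
          intro x _
          rw [← hmemBad]
          split_ifs <;> simp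
        rw [Finset.sum_congr rfl h2]
        have h3 : ∑ x ∈ Icc (S i) (T j), (if x ∈ Bad then c i else 0) =
            ∑ x ∈ (Icc (S i) (T j)).filter (fun x => x ∈ Bad), c i := by
          rw [Finset.sum_filter]
        have h4 : ∑ x ∈ Bad, (if x ⊆ T j then c i * monoFn (S i) x else 0) =
            ∑ x ∈ Bad.filter (fun x => x ⊆ T j ∧ S i ⊆ x), c i := by
          have h7 : ∀ x ∈ Bad, (if x ⊆ T j then c i * monoFn (S i) x else 0) =
              if (x ⊆ T j ∧ S i ⊆ x) then c i else 0 := by
            intro x _
            by_cases h5 : x ⊆ T j <;> by_cases h6 : S i ⊆ x <;> simp [h5, h6, monoFn]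
          rw [Finset.sum_congr rfl h7]
          exact (Finset.sum_filter _ _).symm
        rw [h3, h4]
        apply Finset.sum_congr _ (fun _ _ => rfl)
        ext x
        simp only [mem_filter, mem_Icc]
        tauto
      simp_rw [h1]
      rw [Finset.sum_comm]
      apply Finset.sum_congr rfl
      intro x _
      split_ifs <;> simp
    have hval : ∑ i, c i * ∑ x ∈ Icc (S i) (T j), (F x + G x) = c j := by
      rw [Finset.sum_eq_single j]
      · rw [hself j, mul_one]
      · intro i _ hne
        by_cases hci : c i = 0
        · rw [hci, zero_mul]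
        · have hi1 : i ∈ univ.filter (fun i => c i ≠ 0) := mem_filter.mpr ⟨mem_univ _, hci⟩
          have hle := hj0max i hi1
          have hjc : (S j).card = (S j0).card := hj1.2
          have hge : (S j).card ≥ (S i).card := by
            rw [hjc]; exact hle
          rw [hother i j hne hge, mul_zero]
          intro hsame
          exact hjmax i (mem_filter.mpr ⟨hi1, by omega⟩)
      · intro h; exact absurd (mem_univ _) h
    rw [hswap, hval] at hzero
    exact hcj hzero
  have hle := LinearMap.finrank_le_finrank_of_injective hΦ
  rw [Module.finrank_fintype_fun_eq_card, Module.finrank_fintype_fun_eq_card, Fintype.card_coe] at hle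
  exact hle

end Vale.Agent.Lib.P346
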