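import Vale.Agent.Lib.P346.Razborov

/-!
The multiplication rank bound: a sum of monomials of degree `d` is far from all functions of degree
below `d`, as soon as there are many subsets that leave exactly one monomial alive.
-/

namespace Vale.Agent.Lib.P346

open Finset

variable {E : Type} [Fintype E] [DecidableEq E]

/-- Let `F` be the sum of the monomials `mono p`, all of degree `d`. Let `(S i, pp i)` be pairs where
`mono (pp i)` is the only monomial disjoint from `S i`, and the only monomial contained in
`S i ∪ mono (pp i)`. Then `F` differs from every function of degree below `d` on at least as many points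
as there are pairs. -/
theorem card_le_card_ne {P I : Type} [Fintype P] [Fintype I] [DecidableEq P] [DecidableEq I]
    (mono : P → Finset E) {d : ℕ} (hcard : ∀ p, (mono p).card = d)
    (S : I → Finset E) (pp : I → P)
    (hdisj : ∀ i, Disjoint (S i) (mono (pp i)))
    (hAlive : ∀ i p, Disjoint (S i) (mono p) → p = pp i)
    (hDead : ∀ i p, mono p ⊆ S i ∪ mono (pp i) → p = pp i)
    (hInj : ∀ i j, S i = S j → pp i = pp j → i = j)
    {D : ℕ} {G : Finset E → ZMod 2} (hG : G ∈ DegLE E D) (hD : D < d) :
    Fintype.card I ≤ (univ.filter (fun x => (∑ p, monoFn (mono p) x) ≠ G x)).card := by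
  classical
  set F : Finset E → ZMod 2 := fun x => ∑ p, monoFn (mono p) x with hF
  set Bad : Finset (Finset E) := univ.filter (fun x => (∑ p, monoFn (mono p) x) ≠ G x) with hBad
  set T : I → Finset E := fun i => S i ∪ mono (pp i) with hT
  have hmemBad : ∀ x, (if x ∈ Bad then (1 : ZMod 2) else 0) = F x + G x := by
    intro x
    by_cases hx : x ∈ Bad
    · rw [if_pos hx]
      have hne : F x ≠ G x := (mem_filter.mp hx).2
      rcases zmod2_cases (F x) with h1 | h1 <;> rcases zmod2_cases (G x) with h2 | h2 <;>
        simp_all
    · rw [if_neg hx]
      have he : F x = G x := by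
        by_contra hne
        exact hx (mem_filter.mpr ⟨mem_univ _, hne⟩)
      rw [he, zmod2_add_self]
  -- the main computation over an interval of subsets
  have hM : ∀ i j, (S j).card ≥ (S i).card →
      ∑ x ∈ Icc (S i) (T j), (F x + G x) = if i = j then 1 else 0 := by
    intro i j hij
    by_cases hsub : S i ⊆ T j
    · have hTcard : (T j).card = (S j).card + d := by
        rw [hT, card_union_of_disjoint (hdisj j), hcard]
      have hdim : D < (T j \ S i).card := by
        rw [card_sdiff_of_subset hsub]
        omega
      have hG0 : ∑ x ∈ Icc (S i) (T j), G x = 0 := sum_Icc_eq_zero_of_mem_DegLE hG hsub hdim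
      rw [Finset.sum_add_distrib, hG0, add_zero]
      have hFsum : ∑ x ∈ Icc (S i) (T j), F x = ∑ p, ∑ x ∈ Icc (S i) (T j), monoFn (mono p) x := by
        simp only [hF]
        rw [Finset.sum_comm]
      rw [hFsum]
      -- a term is nonzero only for a monomial completing `S i` to `T j`
      have hterm : ∀ p, (∑ x ∈ Icc (S i) (T j), monoFn (mono p) x) ≠ 0 →
          p = pp i ∧ S i ∪ mono p = T j ∧ Disjoint (S i) (mono p) := by
        intro p hp
        rw [sum_Icc_monoFn _ _ _ hsub] at hp
        split_ifs at hp with hpT
        · have hemp : (T j \ (S i ∪ mono p)).card = 0 := by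
            by_contra hne
            exact hp (two_pow_eq_zero (Nat.pos_of_ne_zero hne))
          have hsub2 : T j ⊆ S i ∪ mono p := by
            rw [card_eq_zero, sdiff_eq_empty_iff_subset] at hemp
            exact hemp
          have heq : S i ∪ mono p = T j := Subset.antisymm (union_subset hsub hpT) hsub2
          have hcu : (S i ∪ mono p).card = (S i).card + (mono p).card := by
            have h1 := card_union_le (S i) (mono p)
            rw [heq, hTcard, hcard p] at *
            omega
          have hdj : Disjoint (S i) (mono p) := by
            rw [← card_union_eq_card_add_card]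
            exact hcu
          exact ⟨hAlive i p hdj, heq, hdj⟩
        · exact absurd rfl hp
      by_cases hij' : i = j
      · subst hij'
        rw [if_pos rfl]
        rw [Finset.sum_eq_single (pp i)]
        · rw [sum_Icc_monoFn _ _ _ hsub, if_pos subset_union_right]
          have : T i \ (S i ∪ mono (pp i)) = ∅ := by
            simp [hT]
          rw [this]; simp
        · intro p _ hne
          by_contra hcon
          exact hne (hterm p hcon).1
        · intro h; exact absurd (mem_univ _) h
      · rw [if_neg hij']
        apply Finset.sum_eq_zero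
        intro p _
        by_contra hcon
        obtain ⟨hp1, hp2, hp3⟩ := hterm p hcon
        apply hij'
        have hsame : pp i = pp j := by
          apply hDead j (pp i)
          rw [← hp1]
          have : mono p ⊆ S i ∪ mono p := subset_union_right
          rw [hp2] at this
          exact this
        have hSS : S i = S j := by
          have h1 : S i = (S i ∪ mono p) \ mono p := by
            rw [union_sdiff_right]
            exact (Finset.sdiff_eq_self_iff_disjoint.mpr hp3).symm
          have h2 : S j = T j \ mono (pp j) := by
            simp only [hT]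
            rw [union_sdiff_right]
            exact (Finset.sdiff_eq_self_iff_disjoint.mpr (hdisj j)).symm
          rw [h1, h2, hp2, hp1, hsame]
        exact hInj i j hSS hsame
    · have hne : i ≠ j := by
        rintro rfl
        exact hsub subset_union_left
      rw [if_neg hne, Icc_eq_empty (fun h => hsub h), sum_empty]
  -- the linear map to the functions on the set of bad points
  let Φ : (I → ZMod 2) →ₗ[ZMod 2] ({x // x ∈ Bad} → ZMod 2) :=
    { toFun := fun c x => ∑ i, c i * monoFn (S i) x.1
      map_add' := by
        intro a b; funext x
        simp [add_mul, Finset.sum_add_distrib]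
      map_smul' := by
        intro r a; funext x
        simp [Finset.mul_sum, mul_assoc] }
  have hΦ : Function.Injective Φ := by
    rw [← LinearMap.ker_eq_bot, LinearMap.ker_eq_bot']
    intro c hc
    by_contra hcne
    have hsupp : (univ.filter (fun i => c i ≠ 0)).Nonempty := by
      obtain ⟨i, hi⟩ := Function.ne_iff.mp hcne
      exact ⟨i, mem_filter.mpr ⟨mem_univ _, hi⟩⟩
    obtain ⟨j, hj, hjmax⟩ := exists_max_image _ (fun i => (S i).card) hsupp
    have hcj : c j ≠ 0 := (mem_filter.mp hj).2
    -- pairing with the interval below `T j`
    have hzero : ∑ x ∈ Bad, (if x ⊆ T j then ∑ i, c i * monoFn (S i) x else 0) = 0 := by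
      apply Finset.sum_eq_zero
      intro x hx
      have h1 := congrFun hc ⟨x, hx⟩
      have h2 : ∑ i, c i * monoFn (S i) x = 0 := h1
      rw [h2]; simp
    have hswap : ∑ x ∈ Bad, (if x ⊆ T j then ∑ i, c i * monoFn (S i) x else 0) =
        ∑ i, c i * ∑ x ∈ Icc (S i) (T j), (F x + G x) := by
      have h1 : ∀ i, c i * ∑ x ∈ Icc (S i) (T j), (F x + G x) =
          ∑ x ∈ Bad, (if x ⊆ T j then c i * monoFn (S i) x else 0) := by
        intro i
        rw [Finset.mul_sum]
        have h2 : ∀ x ∈ Icc (S i) (T j), c i * (F x + G x) =
            if x ∈ Bad then c i else 0 := by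
          intro x _
          rw [← hmemBad]
          split_ifs <;> simp
        rw [Finset.sum_congr rfl h2]
        have h3 : ∑ x ∈ Icc (S i) (T j), (if x ∈ Bad then c i else 0) =
            ∑ x ∈ (Icc (S i) (T j)).filter (fun x => x ∈ Bad), c i := by
          rw [Finset.sum_filter]
        have h4 : ∑ x ∈ Bad, (if x ⊆ T j then c i * monoFn (S i) x else 0) =
            ∑ x ∈ Bad.filter (fun x => x ⊆ T j ∧ S i ⊆ x), c i := by
          have h7 : ∀ x ∈ Bad, (if x ⊆ T j then c i * monoFn (S i) x else 0) =
              if (x ⊆ T j ∧ S i ⊆ x) then c i else 0 := by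
            intro x _
            by_cases h5 : x ⊆ T j <;> by_cases h6 : S i ⊆ x <;> simp [h5, h6, monoFn]
          rw [Finset.sum_congr rfl h7]
          exact (Finset.sum_filter _ _).symm
        rw [h3, h4]
        apply Finset.sum_congr _ (fun _ _ => rfl)
        ext x
        simp only [mem_filter, mem_Icc]
        tauto
      simp_rw [h1]
      rw [Finset.sum_comm]
      apply Finset.sum_congr rfl
      intro x _
      split_ifs <;> simp
    have hval : ∑ i, c i * ∑ x ∈ Icc (S i) (T j), (F x + G x) = c j := by
      rw [Finset.sum_eq_single j]
      · rw [hM j j le_rfl, if_pos rfl, mul_one]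
      · intro i _ hne
        by_cases hci : c i = 0
        · rw [hci, zero_mul]
        · have hle := hjmax i (mem_filter.mpr ⟨mem_univ _, hci⟩)
          rw [hM i j hle, if_neg hne, mul_zero]
      · intro h; exact absurd (mem_univ _) h
    rw [hswap, hval] at hzero
    exact hcj hzero
  have hle := LinearMap.finrank_le_finrank_of_injective hΦ
  rw [Module.finrank_fintype_fun_eq_card, Module.finrank_fintype_fun_eq_card, Fintype.card_coe] at hle
  exact hle

end Vale.Agent.Lib.P346
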