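import Vale.Agent.Lib.P346.Approx
import Vale.Agent.Lib.P346.Rank
import Vale.Agent.Lib.P346.Eval

/-!
Assembly: the product of `B` blocks, the rank bound for the product family, and the inequality
`2 ^ τ ≤ C.size * 2 ^ (B * (h + 1))` for every circuit computing `IMM_{n,n}` over `ZMod 2`.
-/

namespace Vale.Agent.Lib.P346

open Finset MvPolynomial

section Lift

variable {β : Type} [Fintype β] [DecidableEq β] {B : ℕ}

/-- The subset of `Fin B × β` made of one subset of `β` in each block. -/
def lift (z : Fin B → Finset β) : Finset (Fin B × β) :=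
  univ.filter (fun q => q.2 ∈ z q.1)

lemma mem_lift {z : Fin B → Finset β} {q : Fin B × β} : q ∈ lift z ↔ q.2 ∈ z q.1 := by
  simp [lift]

lemma lift_subset_iff {z w : Fin B → Finset β} : lift z ⊆ lift w ↔ ∀ i, z i ⊆ w i := by
  constructor
  · intro H i e he
    exact mem_lift.mp (H (mem_lift.mpr he) : (i, e) ∈ lift w)
  · intro H q hq
    exact mem_lift.mpr (H q.1 (mem_lift.mp hq))

lemma lift_injective : Function.Injective (lift (B := B) (β := β)) := by
  intro z w H
  funext i
  apply Subset.antisymm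
  · exact lift_subset_iff.mp (H ▸ Subset.refl _) i
  · exact lift_subset_iff.mp (H ▸ Subset.refl _) i

lemma lift_union (z w : Fin B → Finset β) : lift z ∪ lift w = lift (fun i => z i ∪ w i) := by
  ext q
  simp [mem_lift]

lemma lift_disjoint_iff {z w : Fin B → Finset β} :
    Disjoint (lift z) (lift w) ↔ ∀ i, Disjoint (z i) (w i) := by
  constructor
  · intro H i
    rw [Finset.disjoint_left] at H ⊢
    intro e he1 he2
    exact H (mem_lift.mpr he1 : (i, e) ∈ lift z) (mem_lift.mpr he2)
  · intro H
    rw [Finset.disjoint_left]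
    intro q hq1 hq2
    exact (Finset.disjoint_left.mp (H q.1)) (mem_lift.mp hq1) (mem_lift.mp hq2)

lemma card_lift (z : Fin B → Finset β) : (lift z).card = ∑ i, (z i).card := by
  rw [← Finset.card_sigma]
  apply Finset.card_bij' (fun q _ => (⟨q.1, q.2⟩ : Σ _ : Fin B, β)) (fun q _ => (q.1, q.2))
  · intro q hq
    exact mem_sigma.mpr ⟨mem_univ _, mem_lift.mp hq⟩
  · intro q hq
    exact mem_lift.mpr (mem_sigma.mp hq).2
  · intro q _
    rfl
  · intro q _
    rfl

end Lift

section Assembly

variable {h n : ℕ} (φ : (Fin h → Bool) → Fin n) (m B : ℕ)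

/-- The paths of a block, as elements of the power set. -/
abbrev PathT (m : ℕ) : Type := {A // A ∈ (range m).powerset}

/-- The set of edges of a tuple of paths, one for each block. -/
def monoG (p : Fin B → PathT m) : Finset (Fin B × Edge0 m h n) :=
  lift (fun i => Mono φ m (p i).1)

lemma card_monoG (p : Fin B → PathT m) : (monoG φ m B p).card = B * (m + h) := by
  rw [monoG, card_lift]
  simp [card_Mono]

lemma lift_subset_iff_slice (z : Fin B → Finset (Edge0 m h n)) (x : Finset (Fin B × Edge0 m h n)) :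
    lift z ⊆ x ↔ ∀ i : Fin B, z i ⊆ sliceN m B x i.1 := by
  constructor
  · intro H i e he
    have h1 : (i, e) ∈ x := H (mem_lift.mpr he)
    simp only [sliceN, mem_filter, mem_univ, true_and]
    exact ⟨i.2, h1⟩
  · intro H q hq
    have h1 := H q.1 (mem_lift.mp hq)
    simp only [sliceN, mem_filter, mem_univ, true_and] at h1
    obtain ⟨_, h2⟩ := h1
    exact h2

/-- The value of the product of the block sums is the sum of the monomials of the tuples of paths. -/
theorem doneF_eq_sum [NeZero n] (x : Finset (Fin B × Edge0 m h n)) :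
    doneF φ m B x B = ∑ p : Fin B → PathT m, monoFn (monoG φ m B p) x := by
  classical
  have h1 : doneF φ m B x B = ∏ i : Fin B, ∑ A : PathT m,
      (if Mono φ m A.1 ⊆ sliceN m B x i.1 then (1 : ZMod 2) else 0) := by
    rw [doneF, Finset.prod_range]
    apply Finset.prod_congr rfl
    intro i _
    rw [blockF]
    exact (Finset.sum_coe_sort (range m).powerset
      (fun A => if Mono φ m A ⊆ sliceN m B x i.1 then (1 : ZMod 2) else 0)).symm
  rw [h1, Finset.prod_univ_sum, Fintype.piFinset_univ]
  apply Finset.sum_congr rfl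
  intro p _
  rw [Finset.prod_ite_zero]
  simp only [monoFn, monoG, lift_subset_iff_slice, mem_univ, true_imp_iff, prod_const_one]

/-- The index set of one block: a path and a good subset for this path. -/
abbrev I0 (m : ℕ) : Type := Σ A : PathT m, {S // S ∈ GoodSet φ m A.1}

/-- The rank bound for the tuples of paths. -/
theorem card_pow_le_card_ne (hφ : Function.Injective φ) (_hφ' : True) {D : ℕ}
    {G : Finset (Fin B × Edge0 m h n) → ZMod 2}
    (hG : G ∈ DegLE (Fin B × Edge0 m h n) D) (hD : D < B * (m + h)) :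
    (∑ A : PathT m, (GoodSet φ m A.1).card) ^ B ≤
      (univ.filter (fun x => (∑ p : Fin B → PathT m, monoFn (monoG φ m B p) x) ≠ G x)).card := by
  classical
  have hI : Fintype.card (Fin B → I0 φ m) = (∑ A : PathT m, (GoodSet φ m A.1).card) ^ B := by
    rw [Fintype.card_fun, Fintype.card_sigma, Fintype.card_fin]
    simp only [Fintype.card_coe]
  rw [← hI]
  have hext : ∀ a b : I0 φ m, a.1 = b.1 → a.2.1 = b.2.1 → a = b := by
    rintro ⟨a1, a2, ha⟩ ⟨b1, b2, hb⟩ h1 h2
    simp only at h1 h2
    subst h1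
    subst h2
    rfl
  have hgood : ∀ a : I0 φ m, a.2.1 ⊆ univ \ Mono φ m a.1.1 ∧
      (∀ A' ∈ (range m).powerset, A' ≠ a.1.1 → ¬ Disjoint a.2.1 (Mono φ m A')) ∧
      (∀ A' ∈ (range m).powerset, A' ≠ a.1.1 → ¬ (Mono φ m A' ⊆ a.2.1 ∪ Mono φ m a.1.1)) := by
    intro a
    have h1 := mem_filter.mp a.2.2
    exact ⟨mem_powerset.mp h1.1, h1.2.1, h1.2.2⟩
  apply card_le_card_ne (monoG φ m B) (d := B * (m + h)) (card_monoG φ m B)
    (fun ι : Fin B → I0 φ m => lift (fun i => (ι i).2.1))
    (fun ι : Fin B → I0 φ m => fun i => (ι i).1) _ _ _ _ hG hD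
  · intro ι
    rw [monoG, lift_disjoint_iff]
    intro i
    have h1 := (hgood (ι i)).1
    rw [Finset.disjoint_left]
    intro e he1 he2
    exact (mem_sdiff.mp (h1 he1)).2 he2
  · intro ι p hp
    rw [monoG, lift_disjoint_iff] at hp
    funext i
    by_contra hne
    exact (hgood (ι i)).2.1 (p i).1 (p i).2 (fun he => hne (Subtype.ext he)) (hp i)
  · intro ι p hp
    rw [monoG, monoG, lift_union, lift_subset_iff] at hp
    funext i
    by_contra hne
    exact (hgood (ι i)).2.2 (p i).1 (p i).2 (fun he => hne (Subtype.ext he)) (hp i)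
  · intro ι ι' hS hp
    funext i
    apply hext
    · exact congrFun hp i
    · exact congrFun (lift_injective hS) i

end Assembly

/-- An injective map sending the zero window to `0`. -/
lemma exists_phi {h n : ℕ} [NeZero n] (hcard : 2 ^ h ≤ n) :
    ∃ φ : (Fin h → Bool) → Fin n, Function.Injective φ ∧ φ (fun _ => false) = 0 := by
  classical
  have h1 : Fintype.card (Fin h → Bool) ≤ Fintype.card (Fin n) := by
    simpa using hcard
  obtain ⟨f⟩ := Function.Embedding.nonempty_of_card_le h1
  refine ⟨fun w => Equiv.swap (f (fun _ => false)) 0 (f w), ?_, ?_⟩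
  · intro a b hab
    exact f.injective ((Equiv.swap _ _).injective hab)
  · simp

/-- The main inequality for a circuit computing `IMM_{n,n}` over `ZMod 2`. -/
theorem main_bound {n h m B τ : ℕ} [NeZero n] (hcard : 2 ^ h ≤ n) (hlen : B * (m + h) ≤ n)
    (hτ : τ * τ < B * (m + h)) (hpar : 2 * m * (m + h + 1) ≤ 2 ^ h)
    (C : Circuit (ZMod 2) (ImmVar n)) (hC : C.output = imm (ZMod 2) n) :
    2 ^ τ ≤ C.size * 2 ^ (B * (h + 1)) := by
  classical
  obtain ⟨φ, hφ, h0⟩ := exists_phi (h := h) (n := n) hcard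
  obtain ⟨G, hG, hGc⟩ := circuit_approx C (assign φ m B) (assign_mem_DegLE φ m B) τ
  have hrank := card_pow_le_card_ne φ m B hφ trivial hG (by simpa using hτ)
  have hset : univ.filter (fun x => (∑ p : Fin B → PathT m, monoFn (monoG φ m B p) x) ≠ G x) =
      univ.filter (fun x => G x ≠ eval (assign φ m B x) C.output) := by
    ext x
    simp only [mem_filter, mem_univ, true_and]
    rw [hC, eval_imm_eq_prod φ m B hφ h0 hlen, doneF_eq_sum]
    exact ne_comm
  rw [hset] at hrank
  set Bad := univ.filter (fun x => G x ≠ eval (assign φ m B x) C.output) with hBad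
  set S0 := ∑ A : PathT m, (GoodSet φ m A.1).card with hS0
  have hn : 0 < n := Nat.pos_of_ne_zero (NeZero.ne n)
  have hN : Fintype.card (Edge0 m h n) = (m + h) * (n * 2) := by
    simp
  set N0 := (m + h) * (n * 2) with hN0
  have hmh : (m + h) * 2 ≤ N0 := by
    rw [hN0]
    exact Nat.mul_le_mul_left _ (by omega)
  have hE : Fintype.card (Fin B × Edge0 m h n) = B * N0 := by
    rw [Fintype.card_prod, hN, Fintype.card_fin]
  -- the number of good pairs
  have hone : ∀ A : PathT m, 2 ^ (N0 - (m + h)) ≤ 2 * (GoodSet φ m A.1).card := by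
    intro A
    have hA : A.1 ⊆ range m := mem_powerset.mp A.2
    have hc : (univ \ Mono φ m A.1 : Finset (Edge0 m h n)).card = N0 - (m + h) := by
      rw [card_sdiff_of_subset (subset_univ _), card_univ, hN, card_Mono]
    have h1 := two_pow_le_card_good φ m hφ hA hpar (by rw [hc]; omega)
    rwa [hc] at h1
  have hsum : 2 ^ (N0 - h) ≤ 2 * S0 := by
    have h1 : ∑ _A : PathT m, 2 ^ (N0 - (m + h)) ≤ ∑ A : PathT m, 2 * (GoodSet φ m A.1).card :=
      Finset.sum_le_sum (fun A _ => hone A)
    rw [← Finset.mul_sum, Finset.sum_const, smul_eq_mul, card_univ, Fintype.card_coe, card_powerset,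
      card_range, ← pow_add] at h1
    have e : m + (N0 - (m + h)) = N0 - h := by omega
    rwa [e] at h1
  have hsumB : 2 ^ ((N0 - h) * B) ≤ 2 ^ B * S0 ^ B := by
    rw [pow_mul, ← mul_pow]
    exact Nat.pow_le_pow_left hsum B
  have hfinal : 2 ^ τ * 2 ^ ((N0 - h) * B) ≤ ((C.nP4 + C.nP2) * 2 ^ (B * (h + 1))) * 2 ^ ((N0 - h) * B) := by
    calc 2 ^ τ * 2 ^ ((N0 - h) * B) ≤ 2 ^ τ * (2 ^ B * S0 ^ B) := Nat.mul_le_mul_left _ hsumB
      _ ≤ 2 ^ τ * (2 ^ B * Bad.card) := Nat.mul_le_mul_left _ (Nat.mul_le_mul_left _ hrank)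
      _ = 2 ^ B * (2 ^ τ * Bad.card) := by ring
      _ ≤ 2 ^ B * ((C.nP4 + C.nP2) * 2 ^ (B * N0)) := by
          apply Nat.mul_le_mul_left
          rw [← hE]
          exact hGc
      _ = ((C.nP4 + C.nP2) * 2 ^ (B * (h + 1))) * 2 ^ ((N0 - h) * B) := by
          have e : B * N0 = B * h + (N0 - h) * B := by
            have : N0 = h + (N0 - h) := by omega
            conv_lhs => rw [this]
            ring
          rw [e, mul_add B h 1, pow_add 2 (B * h), pow_add 2 (B * h), mul_one]
          ring
  have hle : 2 ^ τ ≤ (C.nP4 + C.nP2) * 2 ^ (B * (h + 1)) :=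
    Nat.le_of_mul_le_mul_right hfinal (by positivity)
  refine hle.trans (Nat.mul_le_mul_right _ ?_)
  simp only [Circuit.size]
  omega

end Vale.Agent.Lib.P346
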