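import Vale.Agent.Lib.P346.Approx
import Vale.Agent.Lib.P346.Eval2
import Vale.Agent.Lib.P346.Moments

/-!
Assembly of the bound without the logarithm: every circuit computing `IMM_{n,n}` over `ZMod 2` has
size at least `2 ^ (Nat.sqrt n / 200)`.
-/

namespace Vale.Agent.Lib.P346

open Finset MvPolynomial

/-- The inequality `(1 + 2 / r) ^ r ≤ 8`. -/
lemma one_add_pow_le (r : ℕ) (hr : 0 < r) : (1 + 2 / (r : ℚ)) ^ r ≤ 8 := by
  have h : ((1 + 2 / (r : ℝ)) ^ r : ℝ) ≤ 8 := by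
    have h1 : 1 + 2 / (r : ℝ) ≤ Real.exp (2 / r) := by
      have := Real.add_one_le_exp (2 / (r : ℝ))
      linarith
    have hpos : (0 : ℝ) ≤ 1 + 2 / r := by positivity
    have hrR : (r : ℝ) ≠ 0 := by exact_mod_cast hr.ne'
    calc (1 + 2 / (r : ℝ)) ^ r ≤ Real.exp (2 / r) ^ r := pow_le_pow_left₀ hpos h1 r
      _ = Real.exp 2 := by
        rw [← Real.exp_nat_mul]
        congr 1
        field_simp
      _ ≤ 8 := by
        have h2 : Real.exp 2 = Real.exp 1 * Real.exp 1 := by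
          rw [← Real.exp_add]
          norm_num
        have h3 := Real.exp_one_lt_d9
        have h4 := Real.exp_pos 1
        rw [h2]
        nlinarith
  have h' : (((1 + 2 / (r : ℚ)) ^ r : ℚ) : ℝ) ≤ ((8 : ℚ) : ℝ) := by
    push_cast
    exact h
  exact Rat.cast_le.mp h'

/-- The power of `1 + 2 / r` is bounded by a power of two. -/
lemma one_add_pow_le_two_pow {r D m : ℕ} (hr : 0 < r) (hD : D ≤ r * m) :
    (1 + 2 / (r : ℚ)) ^ D ≤ 2 ^ (3 * m) := by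
  have h0 : (1 : ℚ) ≤ 1 + 2 / (r : ℚ) := by
    have : (0 : ℚ) ≤ 2 / (r : ℚ) := by positivity
    linarith
  calc (1 + 2 / (r : ℚ)) ^ D ≤ (1 + 2 / (r : ℚ)) ^ (r * m) := pow_le_pow_right₀ h0 hD
    _ = ((1 + 2 / (r : ℚ)) ^ r) ^ m := pow_mul _ _ _
    _ ≤ 8 ^ m := pow_le_pow_left₀ (by positivity) (one_add_pow_le r hr) m
    _ = 2 ^ (3 * m) := by
      rw [pow_mul]
      norm_num

/-- The defect of the first moment is small. -/
lemma half_le_mass_pow (D : ℕ) : (1 / 2 : ℚ) ≤ (1 - (1 / 2) ^ (D + 2)) ^ (2 * D) := by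
  have h1 := one_add_mul_le_pow (a := -((1 / 2 : ℚ) ^ (D + 2))) (by
    have h2 : ((1 : ℚ) / 2) ^ (D + 2) ≤ 1 := pow_le_one₀ (by norm_num) (by norm_num)
    linarith) (2 * D)
  have e : (1 - ((1 : ℚ) / 2) ^ (D + 2)) = 1 + -((1 / 2 : ℚ) ^ (D + 2)) := by ring
  rw [e]
  refine le_trans ?_ h1
  have h3 : (D : ℚ) ≤ 2 ^ D := by exact_mod_cast Nat.lt_two_pow_self.le
  have h4 : ((1 : ℚ) / 2) ^ (D + 2) = (1 / 2) ^ D * (1 / 4) := by
    rw [pow_add]
    norm_num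
  have h5 : (D : ℚ) * (1 / 2) ^ D ≤ 1 := by
    have h6 : ((1 : ℚ) / 2) ^ D * 2 ^ D = 1 := by
      rw [← mul_pow]
      norm_num
    have h7 : (0 : ℚ) ≤ (1 / 2) ^ D := by positivity
    nlinarith
  rw [h4]
  push_cast
  nlinarith

/-- The main inequality for a circuit computing `IMM_{n,n}` over `ZMod 2`, for one long walk. -/
theorem sharp_main {n D τ r : ℕ} [NeZero n] (hD : D < n) (hτ : τ * τ < D) (hr : 2 ≤ r)
    (hrn : r ^ 2 ≤ n) (C : Circuit (ZMod 2) (ImmVar n)) (hC : C.output = imm (ZMod 2) n) :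
    (2 : ℚ) ^ τ ≤ 2 * C.size * ((1 + 2 / (r : ℚ)) ^ D * (1 + 2 * r)) := by
  classical
  obtain ⟨μ, hμ⟩ := exists_shifts (G := Fin n) (b := D + 2) hr (by simpa using hrn) D
  have hrpos : (0 : ℚ) < r := by
    have : 0 < r := by omega
    exact_mod_cast this
  have hpair : pairA μ D 0 0 ≤ (1 + 2 / (r : ℚ)) ^ D * (1 + 2 * r) := by
    refine le_trans ?_ hμ
    have h1 : (0 : ℚ) ≤ ∑ δ, pairA μ D 0 δ := Finset.sum_nonneg (fun δ _ => pairA_nonneg μ D 0 δ)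
    have h2 : (0 : ℚ) ≤ (∑ δ, pairA μ D 0 δ) / Fintype.card (Fin n) := div_nonneg h1 (by positivity)
    have h3 : (0 : ℚ) ≤ 2 * r * ((∑ δ, pairA μ D 0 δ) / Fintype.card (Fin n)) := by positivity
    linarith
  obtain ⟨Q, hQ, hQc⟩ := circuit_approx C (assignW (D := D) (b := D + 2) μ) (assignW_mem_DegLE μ) τ
  have hdeg : τ * (τ * 1) < D := by simpa using hτ
  have hrank := card_imSet_le (D := D) μ hQ hdeg
  have hset : univ.filter (fun x => (∑ w : Fin D → Fin (D + 2), monoFn (monoW μ w) x) ≠ Q x) =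
      univ.filter (fun x => Q x ≠ eval (assignW μ x) C.output) := by
    ext x
    simp only [mem_filter, mem_univ, true_and]
    rw [hC, eval_immW_eq μ x hD]
    exact ne_comm
  rw [hset] at hrank
  set Bad := univ.filter (fun x => Q x ≠ eval (assignW μ x) C.output) with hBad
  have hmom := card_imSet_mul_ge (D := D) μ
  set N := Fintype.card (EdgeW D (Fin n) (D + 2)) with hN
  have hN0 : (0 : ℚ) < 2 ^ N := by positivity
  have hpairnn : 0 ≤ pairA μ D 0 0 := pairA_nonneg μ D 0 0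
  have hhalf := half_le_mass_pow D
  have hrankQ : ((imSet μ : Finset (Finset (EdgeW D (Fin n) (D + 2)))).card : ℚ) ≤ Bad.card := by
    exact_mod_cast hrank
  have hQcQ : (2 : ℚ) ^ τ * Bad.card ≤ (C.nP4 + C.nP2) * 2 ^ N := by
    exact_mod_cast hQc
  have hτpos : (0 : ℚ) < 2 ^ τ := by positivity
  have hsize : ((C.nP4 + C.nP2 : ℕ) : ℚ) ≤ C.size := by
    have : C.nP4 + C.nP2 ≤ C.size := by
      simp only [Circuit.size]
      omega
    exact_mod_cast this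
  have hsizennq : (0 : ℚ) ≤ ((C.nP4 + C.nP2 : ℕ) : ℚ) := by positivity
  -- the chain of inequalities
  have h1 : (2 : ℚ) ^ τ * (2 ^ N * (1 / 2)) ≤ (2 : ℚ) ^ τ * (Bad.card * pairA μ D 0 0) := by
    apply mul_le_mul_of_nonneg_left _ hτpos.le
    calc (2 : ℚ) ^ N * (1 / 2) ≤ 2 ^ N * (1 - (1 / 2) ^ (D + 2)) ^ (2 * D) :=
          mul_le_mul_of_nonneg_left hhalf hN0.le
      _ ≤ _ := hmom
      _ ≤ Bad.card * pairA μ D 0 0 := mul_le_mul_of_nonneg_right hrankQ hpairnn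
  have h2 : (2 : ℚ) ^ τ * (Bad.card * pairA μ D 0 0) ≤ ((C.nP4 + C.nP2) * 2 ^ N) * pairA μ D 0 0 := by
    rw [← mul_assoc]
    exact mul_le_mul_of_nonneg_right hQcQ hpairnn
  have h3 : (2 : ℚ) ^ N * ((2 : ℚ) ^ τ * (1 / 2)) ≤ 2 ^ N * ((C.nP4 + C.nP2) * pairA μ D 0 0) := by
    calc _ = (2 : ℚ) ^ τ * (2 ^ N * (1 / 2)) := by ring
      _ ≤ _ := h1.trans h2
      _ = _ := by ring
  have h4 : (2 : ℚ) ^ τ * (1 / 2) ≤ (C.nP4 + C.nP2) * pairA μ D 0 0 := le_of_mul_le_mul_left h3 hN0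
  have h5 : (2 : ℚ) ^ τ * (1 / 2) ≤ C.size * ((1 + 2 / (r : ℚ)) ^ D * (1 + 2 * r)) := by
    refine h4.trans ?_
    have hs : ((C.nP4 : ℚ) + C.nP2) ≤ C.size := by exact_mod_cast hsize
    have hs0 : (0 : ℚ) ≤ (C.nP4 : ℚ) + C.nP2 := by positivity
    have hs1 : (0 : ℚ) ≤ (C.size : ℚ) := by positivity
    exact mul_le_mul hs hpair hpairnn hs1
  linarith

/-- The final inequality in natural numbers. -/
lemma nat_budget {τ m a s : ℕ} (h : (2 : ℚ) ^ τ ≤ 2 * s * (2 ^ (3 * m) * 2 ^ a)) :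
    2 ^ τ ≤ s * 2 ^ (1 + 3 * m + a) := by
  have h1 : (2 : ℚ) ^ τ ≤ s * 2 ^ (1 + 3 * m + a) := by
    refine h.trans (le_of_eq ?_)
    rw [pow_add, pow_add]
    ring
  exact_mod_cast h1

lemma linear_le_two_pow (j : ℕ) (hj : 10 ≤ j) : 40 * j + 40 ≤ 2 ^ j := by
  induction j, hj using Nat.le_induction with
  | base => norm_num
  | succ j hj ih =>
    rw [pow_succ]
    omega

/-- The lower bound on the size of every circuit computing `IMM_{n,n}` over `ZMod 2`. -/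
theorem sharp_bound (n : ℕ) [NeZero n] (C : Circuit (ZMod 2) (ImmVar n))
    (hC : C.output = imm (ZMod 2) n) :
    2 ^ (Nat.sqrt n / 200) ≤ C.size := by
  have hsize1 : 1 ≤ C.size := by
    simp only [Circuit.size]
    omega
  have hrn : Nat.sqrt n ^ 2 ≤ n := Nat.sqrt_le' n
  generalize Nat.sqrt n = r at hrn
  by_cases hr : r < 200
  · rw [Nat.div_eq_of_lt hr, pow_zero]
    exact hsize1
  push Not at hr
  obtain ⟨q, hq⟩ : ∃ q, q = r / 6 := ⟨_, rfl⟩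
  obtain ⟨a, ha⟩ : ∃ a, a = r / 20 := ⟨_, rfl⟩
  obtain ⟨m, hm⟩ : ∃ m, m = q / 6 + 1 := ⟨_, rfl⟩
  obtain ⟨τ, hτ⟩ : ∃ τ, τ = q - 1 := ⟨_, rfl⟩
  obtain ⟨E, hE⟩ : ∃ E, E = r / 200 := ⟨_, rfl⟩
  rw [← hE]
  have hq6 : 6 * q ≤ r := by omega
  have hq33 : 33 ≤ q := by omega
  have hτq : τ + 1 = q := by omega
  have hτ2 : τ * τ < q * q := by
    rw [← hτq]
    nlinarith
  have hqq : q * q < n := by
    have h1 : r ^ 2 = r * r := by ring
    have h2 : (6 * q) * (6 * q) ≤ r * r := Nat.mul_le_mul hq6 hq6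
    have h3 : 0 < q * q := by positivity
    have h4 : (6 * q) * (6 * q) = 36 * (q * q) := by ring
    omega
  have hmain := sharp_main (n := n) (D := q * q) (τ := τ) (r := r) hqq hτ2 (by omega) hrn C hC
  have hDm : q * q ≤ r * m := by
    have h1 : q ≤ 6 * m := by omega
    calc q * q ≤ q * (6 * m) := Nat.mul_le_mul_left _ h1
      _ = (6 * q) * m := by ring
      _ ≤ r * m := Nat.mul_le_mul_right _ hq6
  have hpow := one_add_pow_le_two_pow (r := r) (D := q * q) (m := m) (by omega) hDm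
  have hlin : 1 + 2 * r ≤ 2 ^ a := by
    have := linear_le_two_pow a (by omega)
    omega
  have hlinQ : (1 + 2 * (r : ℚ)) ≤ 2 ^ a := by exact_mod_cast hlin
  have hs0 : (0 : ℚ) ≤ 2 * (C.size : ℚ) := by positivity
  have hlin0 : (0 : ℚ) ≤ 1 + 2 * (r : ℚ) := by positivity
  have hpow0 : (0 : ℚ) ≤ (2 : ℚ) ^ (3 * m) := by positivity
  have hle : (2 : ℚ) ^ τ ≤ 2 * (C.size : ℚ) * (2 ^ (3 * m) * 2 ^ a) :=
    hmain.trans (mul_le_mul_of_nonneg_left (mul_le_mul hpow hlinQ hlin0 hpow0) hs0)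
  have hnat := nat_budget hle
  have hbudget : E + (1 + 3 * m + a) ≤ τ := by omega
  have h5 : 2 ^ E * 2 ^ (1 + 3 * m + a) ≤ C.size * 2 ^ (1 + 3 * m + a) := by
    calc 2 ^ E * 2 ^ (1 + 3 * m + a) = 2 ^ (E + (1 + 3 * m + a)) := (pow_add _ _ _).symm
      _ ≤ 2 ^ τ := Nat.pow_le_pow_right (by norm_num) hbudget
      _ ≤ _ := hnat
  exact Nat.le_of_mul_le_mul_right h5 (by positivity)

end Vale.Agent.Lib.P346
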